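import Mathlib

/-!
P194: change of the field, from `ZMod 2` to all fields of characteristic 2 (helper872).
-/

namespace Vale.Agent.P194.M

universe u

/-- a pair over `F_2` gives a pair over every field of characteristic 2 -/
theorem base_change {G : Type} [Group G] {a b : MonoidAlgebra (ZMod 2) G} (hab : a * b = 1)
    (hba : b * a ≠ 1) (K : Type u) [Field K] [CharP K 2] :
    ∃ a b : MonoidAlgebra K G, a * b = 1 ∧ b * a ≠ 1 := by
  let f : MonoidAlgebra (ZMod 2) G →+* MonoidAlgebra K G :=
    MonoidAlgebra.mapRingHom G (ZMod.castHom (dvd_refl 2) K)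
  have hf : Function.Injective f := by
    intro x y hxy
    apply MonoidAlgebra.coeff_injective
    ext g
    have h := congrArg (fun z => MonoidAlgebra.coeff z g) hxy
    simp only [f, MonoidAlgebra.coeff_mapRingHom] at h
    exact (ZMod.castHom (dvd_refl 2) K).injective (by simpa using h)
  refine ⟨f a, f b, by rw [← map_mul, hab, map_one], fun h => hba (hf ?_)⟩
  rw [map_mul, h, map_one]

end Vale.Agent.P194.M
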