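import Vale.Agent.P194.M.FinAlg

/-!
P194, final algebra, version without colours (helper22).  All ports but one are matched:
`alpha * beta = g0` is a group element, `alpha = alpha' * D(t)` with `D` not a unit of
`F_2[t,t⁻¹]` and `t` of infinite order: `a = g0⁻¹ alpha`, `b = beta` satisfy `a * b = 1`,
`b * a ≠ 1`.
-/

namespace Vale.Agent.P194.M

open Finset

section

variable {G : Type} [Group G]

/-- restriction of an element of the group ring to the powers of `t` -/
noncomputable def resT (t : G) (ht : Function.Injective (fun n : ℤ => t ^ n))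
    (f : MonoidAlgebra (ZMod 2) G) : AddMonoidAlgebra (ZMod 2) ℤ :=
  AddMonoidAlgebra.ofCoeff (Finsupp.comapDomain (fun n : ℤ => t ^ n) f.coeff ht.injOn)

theorem resT_coeff (t : G) (ht : Function.Injective (fun n : ℤ => t ^ n))
    (f : MonoidAlgebra (ZMod 2) G) (n : ℤ) : (resT t ht f).coeff n = f.coeff (t ^ n) := by
  simp [resT]

theorem resT_add (t : G) (ht : Function.Injective (fun n : ℤ => t ^ n))
    (f f' : MonoidAlgebra (ZMod 2) G) : resT t ht (f + f') = resT t ht f + resT t ht f' := by
  apply AddMonoidAlgebra.coeff_injective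
  ext n
  rw [resT_coeff]
  simp [resT_coeff]

theorem resT_single (t : G) (ht : Function.Injective (fun n : ℤ => t ^ n)) (m : ℤ) (r : ZMod 2) :
    resT t ht (MonoidAlgebra.single (t ^ m) r) = AddMonoidAlgebra.single m r := by
  classical
  apply AddMonoidAlgebra.coeff_injective
  ext n
  rw [resT_coeff]
  simp only [MonoidAlgebra.coeff_single, AddMonoidAlgebra.coeff_single, Finsupp.single_apply]
  by_cases h : m = n
  · rw [if_pos h, if_pos (by rw [h])]
  · rw [if_neg h, if_neg]
    intro h2
    exact h (ht h2)

theorem resT_single_of_not (t : G) (ht : Function.Injective (fun n : ℤ => t ^ n)) (g : G)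
    (hg : ∀ n : ℤ, t ^ n ≠ g) (r : ZMod 2) : resT t ht (MonoidAlgebra.single g r) = 0 := by
  classical
  apply AddMonoidAlgebra.coeff_injective
  ext n
  rw [resT_coeff]
  simp only [MonoidAlgebra.coeff_single, Finsupp.single_apply]
  rw [if_neg]
  · simp
  · intro h
    exact hg n h.symm

theorem resT_mul (t : G) (ht : Function.Injective (fun n : ℤ => t ^ n))
    (f : MonoidAlgebra (ZMod 2) G) (D : AddMonoidAlgebra (ZMod 2) ℤ) :
    resT t ht (f * ph t D) = resT t ht f * D := by
  induction D using AddMonoidAlgebra.induction_linear with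
  | zero =>
    rw [map_zero, mul_zero, mul_zero]
    apply AddMonoidAlgebra.coeff_injective
    ext n
    rw [resT_coeff]
    simp
  | add D D' h h' => rw [map_add, mul_add, resT_add, h, h', mul_add]
  | single k r =>
    rw [ph_single]
    induction f using MonoidAlgebra.induction_linear with
    | zero =>
      rw [zero_mul]
      have h0 : resT t ht (0 : MonoidAlgebra (ZMod 2) G) = 0 := by
        apply AddMonoidAlgebra.coeff_injective
        ext n
        rw [resT_coeff]
        simp
      rw [h0, zero_mul]
    | add f f' h h' => rw [add_mul, resT_add, h, h', resT_add, add_mul]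
    | single g s =>
      have h1 : (MonoidAlgebra.single g s * r • em (t ^ k) : MonoidAlgebra (ZMod 2) G) =
          MonoidAlgebra.single (g * t ^ k) (s * r) := by
        simp [em, MonoidAlgebra.single_mul_single]
      rw [h1]
      by_cases hg : ∃ n : ℤ, t ^ n = g
      · obtain ⟨n, rfl⟩ := hg
        rw [← zpow_add, resT_single, resT_single, AddMonoidAlgebra.single_mul_single]
      · have hg1 : ∀ n : ℤ, t ^ n ≠ g := fun n h => hg ⟨n, h⟩
        have hg2 : ∀ n : ℤ, t ^ n ≠ g * t ^ k := by
          intro n h
          apply hg1 (n - k)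
          rw [zpow_sub, h, mul_inv_cancel_right]
        rw [resT_single_of_not t ht g hg1, resT_single_of_not t ht _ hg2, zero_mul]

theorem resT_one (t : G) (ht : Function.Injective (fun n : ℤ => t ^ n)) :
    resT t ht (1 : MonoidAlgebra (ZMod 2) G) = 1 := by
  have h1 : (1 : MonoidAlgebra (ZMod 2) G) = MonoidAlgebra.single (t ^ (0 : ℤ)) 1 := by
    rw [zpow_zero]; rfl
  rw [h1, resT_single]
  rfl

/-- no left inverse of `c * D(t)` if `D` has no inverse -/
theorem not_left_inv (t : G) (ht : Function.Injective (fun n : ℤ => t ^ n))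
    (D : AddMonoidAlgebra (ZMod 2) ℤ) (hD : ∀ c : AddMonoidAlgebra (ZMod 2) ℤ, c * D ≠ 1)
    (c : MonoidAlgebra (ZMod 2) G) : c * ph t D ≠ 1 := by
  intro h
  apply hD (resT t ht c)
  rw [← resT_mul, h, resT_one]

end

/-- a Laurent polynomial over `F_2` with least exponent `0` and largest exponent `M > 0` has no
inverse -/
theorem laurent_not_unit (D : AddMonoidAlgebra (ZMod 2) ℤ) (M : ℤ) (hM : 0 < M)
    (h0 : D.coeff 0 ≠ 0) (h1 : D.coeff M ≠ 0) (hs : ∀ k, D.coeff k ≠ 0 → 0 ≤ k ∧ k ≤ M)
    (c : AddMonoidAlgebra (ZMod 2) ℤ) : c * D ≠ 1 := by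
  classical
  intro h
  have hc0 : c ≠ 0 := by
    rintro rfl
    rw [zero_mul] at h
    exact zero_ne_one h
  have hne : c.coeff.support.Nonempty := by
    apply Finsupp.support_nonempty_iff.2
    intro h
    exact hc0 (AddMonoidAlgebra.coeff_eq_zero.1 h)
  -- coefficient of a product
  have hmul : ∀ n : ℤ, (c * D).coeff n = ∑ a ∈ c.coeff.support, c.coeff a * D.coeff (n - a) := by
    intro n
    rw [AddMonoidAlgebra.coeff_mul, Finsupp.sum]
    refine Finset.sum_congr rfl fun a _ => ?_
    rw [Finsupp.sum, Finset.sum_eq_single (n - a)]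
    · rw [if_pos (by omega)]
    · intro b _ hb
      rw [if_neg]
      intro h
      apply hb
      omega
    · intro hb
      rw [Finsupp.notMem_support_iff] at hb
      rw [hb, mul_zero]
      simp
  have hone : ∀ n : ℤ, (1 : AddMonoidAlgebra (ZMod 2) ℤ).coeff n ≠ 0 → n = 0 := by
    intro n hn
    by_contra hne
    apply hn
    rw [AddMonoidAlgebra.one_def, AddMonoidAlgebra.coeff_single]
    exact Finsupp.single_eq_of_ne hne
  have hmax := Finset.max'_mem _ hne
  have hmin := Finset.min'_mem _ hne
  set n0 := c.coeff.support.max' hne with hn0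
  set n1 := c.coeff.support.min' hne with hn1
  have hA : n0 + M = 0 := by
    apply hone
    rw [← h, hmul, Finset.sum_eq_single n0]
    · rw [add_sub_cancel_left]
      exact mul_ne_zero (Finsupp.mem_support_iff.1 hmax) h1
    · intro a ha hne'
      have hle : a ≤ n0 := Finset.le_max' _ _ ha
      have hz : D.coeff (n0 + M - a) = 0 := by
        by_contra hz
        have := (hs _ hz).2
        apply hne'
        omega
      rw [hz, mul_zero]
    · intro h2; exact absurd hmax h2
  have hB : n1 = 0 := by
    apply hone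
    rw [← h, hmul, Finset.sum_eq_single n1]
    · rw [sub_self]
      exact mul_ne_zero (Finsupp.mem_support_iff.1 hmin) h0
    · intro a ha hne'
      have hle : n1 ≤ a := Finset.min'_le _ _ ha
      have hz : D.coeff (n1 - a) = 0 := by
        by_contra hz
        have := (hs _ hz).1
        apply hne'
        omega
      rw [hz, mul_zero]
    · intro h2; exact absurd hmin h2
  have hC : n1 ≤ n0 := Finset.min'_le _ _ hmax
  omega

section

variable {G : Type} [Group G]

/-- Main algebraic statement, version without colours. -/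
theorem fin_alg2 {R B C : Type} [Fintype R] [DecidableEq R] [Fintype B] [DecidableEq B] [Fintype C]
    (t : G) (x : R → G) (y : B → G)
    (P : R → AddMonoidAlgebra (ZMod 2) ℤ) (Q : B → AddMonoidAlgebra (ZMod 2) ℤ)
    (P' : R → AddMonoidAlgebra (ZMod 2) ℤ) (D : AddMonoidAlgebra (ZMod 2) ℤ)
    (hP : ∀ r, P r = P' r * D) (hD : ∀ c : AddMonoidAlgebra (ZMod 2) ℤ, c * D ≠ 1)
    (htinj : Function.Injective (fun n : ℤ => t ^ n))
    (rc : C × Bool → R) (blk : C × Bool → B) (ht : C × Bool → ℤ)
    (σ : Equiv.Perm C)
    (hinj : ∀ q q' : C × Bool, rc q = rc q' → blk q = blk q' → ht q = ht q' → q = q')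
    (r0 : R) (j0 : B) (h0 : ℤ)
    (hmem0 : h0 ∈ (P r0 * Q j0).coeff.support)
    (hmem : ∀ q : C × Bool, ht q ∈ (P (rc q) * Q (blk q)).coeff.support)
    (himg : ∀ r j h, h ∈ (P r * Q j).coeff.support →
      (r = r0 ∧ j = j0 ∧ h = h0) ∨ ∃ q : C × Bool, rc q = r ∧ blk q = j ∧ ht q = h)
    (hnot : ∀ q : C × Bool, ¬ (rc q = r0 ∧ blk q = j0 ∧ ht q = h0))
    (hrel : ∀ c, x (rc (c, true)) * t ^ ht (c, true) * y (blk (c, true)) =
      x (rc (σ c, false)) * t ^ ht (σ c, false) * y (blk (σ c, false))) :
    ∃ a b : MonoidAlgebra (ZMod 2) G, a * b = 1 ∧ b * a ≠ 1 := by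
  classical
  set te : C × Bool → G := fun q => x (rc q) * t ^ ht q * y (blk q) with hte
  set tr : C × Bool → R × B × ℤ := fun q => (rc q, blk q, ht q) with htr
  have htrinj : Function.Injective tr := by
    intro q q' h
    simp only [htr, Prod.mk.injEq] at h
    exact hinj q q' h.1 h.2.1 h.2.2
  have hzero : ∑ q : C × Bool, em (te q) = 0 := by
    rw [Fintype.sum_prod_type]
    simp only [Fintype.sum_bool, Finset.sum_add_distrib]
    have h2 : ∑ c : C, em (te (c, true)) = ∑ c : C, em (te (c, false)) := by
      have h3 : ∀ c : C, te (c, true) = te (σ c, false) := hrel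
      simp_rw [h3]
      exact Equiv.sum_comp σ (fun c => em (te (c, false)))
    rw [h2]
    exact add_self _
  have halp : rowSum t x P univ * colSum t y Q = em (x r0 * t ^ h0 * y j0) := by
    rw [prod_eq_ports]
    have h1 : ports P Q univ = insert (r0, j0, h0) ((univ : Finset (C × Bool)).image tr) := by
      ext z
      rw [mem_ports, Finset.mem_insert, Finset.mem_image]
      simp only [Finset.mem_univ, true_and]
      constructor
      · intro hz2
        rcases himg z.1 z.2.1 z.2.2 hz2 with ⟨h3, h4, h5⟩ | ⟨q, h3, h4, h5⟩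
        · left
          rw [← h3, ← h4, ← h5]
        · right
          refine ⟨q, ?_⟩
          simp only [htr, h3, h4, h5]
      · rintro (rfl | ⟨q, rfl⟩)
        · exact hmem0
        · exact hmem q
    have h2 : (r0, j0, h0) ∉ (univ : Finset (C × Bool)).image tr := by
      intro h
      rw [Finset.mem_image] at h
      obtain ⟨q, _, hq⟩ := h
      simp only [htr, Prod.mk.injEq] at hq
      exact hnot q hq
    rw [h1, Finset.sum_insert h2, Finset.sum_image (fun a _ b _ h => htrinj h)]
    have h3 := hzero
    simp only [hte] at h3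
    simp only [htr]
    rw [h3, add_zero]
  refine ⟨em (x r0 * t ^ h0 * y j0)⁻¹ * rowSum t x P univ, colSum t y Q, ?_, ?_⟩
  · rw [mul_assoc, halp, em_mul, inv_mul_cancel, em_one]
  · have h4 : rowSum t x P univ = rowSum t x P' univ * ph t D := by
      unfold rowSum
      rw [Finset.sum_mul]
      refine Finset.sum_congr rfl fun r _ => ?_
      rw [hP, map_mul, mul_assoc]
    rw [h4, ← mul_assoc, ← mul_assoc]
    exact not_left_inv t htinj D hD _

end

end Vale.Agent.P194.M
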