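import Vale.Agent.P194.M.Def
import Vale.Agent.P194.M.FinAlg2

/-! P194, variant M': `D = 1 + t^M + t^(2M)` is not invertible; bound for the heights. -/

namespace Vale.Agent.P194.M

open Finset Vale.Agent.P201.Z

theorem coeff_up (M : ℤ) (hM : 0 < M) (s : Finset ℕ) (z : ℤ) :
    (up M s).coeff z ≠ 0 ↔ ∃ a ∈ s, M * a = z := by
  have h := supp_up (M := M) (L := 0) (by linarith) s (1 : F2Z) (by
    intro h hh
    rw [one_supp, Finset.mem_singleton] at hh
    rw [hh, abs_zero])
  rw [mul_one, one_supp] at h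
  rw [← Finsupp.mem_support_iff, h, dil, Finset.mem_image]
  constructor
  · rintro ⟨⟨a, k⟩, hx, rfl⟩
    rw [Finset.mem_product, Finset.mem_singleton] at hx
    refine ⟨a, hx.1, ?_⟩
    have : k = 0 := hx.2
    simp [this]
  · rintro ⟨a, ha, rfl⟩
    exact ⟨(a, 0), by simp [ha], by simp⟩

theorem D_not_unit (M : ℤ) (hM : 0 < M) (c : F2Z) : c * up M {0, 1, 2} ≠ 1 := by
  apply laurent_not_unit (up M {0, 1, 2}) (2 * M) (by linarith)
  · rw [coeff_up M hM]
    exact ⟨0, by simp, by simp⟩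
  · rw [coeff_up M hM]
    exact ⟨2, by simp, by push_cast; ring⟩
  · intro k hk
    rw [coeff_up M hM] at hk
    obtain ⟨a, ha, rfl⟩ := hk
    simp only [Finset.mem_insert, Finset.mem_singleton] at ha
    rcases ha with rfl | rfl | rfl <;> push_cast <;> constructor <;> linarith

theorem Au_le {p : Pat} {n : ℕ} (r : Rw p) (b : Bk p n) : ∀ a ∈ Au r b, a ≤ 10 := by
  intro a ha
  rcases r with x | (_ | _) <;> rcases b with y | (y | y) <;>
    simp only [Au, Finset.mem_insert, Finset.mem_singleton] at ha <;> omega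

/-- heights are bounded -/
theorem Sf_le {p : Pat} {n : ℕ} {M L : ℤ} (hB : Big p M L) (r : Rw p) (b : Bk p n) :
    ∀ h ∈ Sf p n M r b, |h| ≤ 10 * M + L := by
  intro h hh
  rw [Sf_eq hB, dil, Finset.mem_image] at hh
  obtain ⟨⟨a, k⟩, hx, rfl⟩ := hh
  rw [Finset.mem_product] at hx
  have h1 := Au_le r b a hx.1
  have h2 := fu_le hB r b k hx.2
  have h3 := hB.lt
  have h4 := hB.L0
  have h5 : |M * (a : ℤ)| ≤ 10 * M := by
    rw [abs_of_nonneg (mul_nonneg (by linarith) (by positivity))]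
    have : (a : ℤ) ≤ 10 := by exact_mod_cast h1
    nlinarith
  calc |M * (a : ℤ) + k| ≤ |M * (a : ℤ)| + |k| := abs_add_le _ _
    _ ≤ 10 * M + L := by linarith

end Vale.Agent.P194.M
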