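import Vale.Agent.P194.M.Def

/-! P194, variant M': the conditions `ports`, `blocks`, `labels` of `Sys.Ok`, with a constant that
does not depend on `n`. -/

namespace Vale.Agent.P194.M.Ok

open Finset Vale.Agent.P201.Z Vale.Agent.P194.M

/-- types of blocks -/
abbrev Ty (p : Pat) : Type := p.K ⊕ Bool

/-- type of a block -/
def ty {p : Pat} {n : ℕ} : Bk p n → Ty p
  | Sum.inl y => Sum.inl y.1
  | Sum.inr (Sum.inl _) => Sum.inr true
  | Sum.inr (Sum.inr _) => Sum.inr false

/-- polynomial of a type -/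
noncomputable def Qt (p : Pat) (M : ℤ) : Ty p → F2Z
  | Sum.inl k => up M {0, 1} * p.Q k
  | Sum.inr true => up M {0, 1, 4}
  | Sum.inr false => up M {0, 2, 5}

/-- ports of a row in a block of given type -/
noncomputable def Tt (p : Pat) (M : ℤ) (r : Rw p) (a : Ty p) : Finset ℤ :=
  (Pr p M r * Qt p M a).coeff.support

theorem Sf_ty (p : Pat) (n : ℕ) (M : ℤ) (r : Rw p) (b : Bk p n) :
    Sf p n M r b = Tt p M r (ty b) := by
  rcases b with y | (y | y) <;> rfl

/-- total number of ports of one block of each type -/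
noncomputable def S0 (p : Pat) (M : ℤ) : ℕ := ∑ a : Ty p, ∑ r : Rw p, (Tt p M r a).card

/-- the constant -/
noncomputable def DD (p : Pat) (M : ℤ) : ℕ := 2 * ((Fintype.card p.K + 3) * (S0 p M + 1))

theorem sum_le_S0 (p : Pat) (n : ℕ) (M : ℤ) (b : Bk p n) :
    ∑ r : Rw p, (Sf p n M r b).card ≤ S0 p M := by
  simp only [Sf_ty]
  exact Finset.single_le_sum (f := fun a : Ty p => ∑ r : Rw p, (Tt p M r a).card)
    (fun _ _ => Nat.zero_le _) (Finset.mem_univ (ty b))

theorem ports (p : Pat) (n : ℕ) (M : ℤ) (b : Bk p n) :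
    ∑ r : Rw p, (Sf p n M r b).card ≤ DD p M := by
  refine (sum_le_S0 p n M b).trans ?_
  unfold DD
  have : 1 ≤ Fintype.card p.K + 3 := by omega
  nlinarith [Nat.zero_le (S0 p M), Nat.zero_le (Fintype.card p.K)]

theorem card_Bk (p : Pat) (n : ℕ) : Fintype.card (Bk p n) = Fintype.card p.K * n + (n + 1 + n) := by
  simp [Fintype.card_sum, Fintype.card_prod]

theorem card_Bk_le (p : Pat) {n : ℕ} (hn : 1 ≤ n) :
    Fintype.card (Bk p n) ≤ (Fintype.card p.K + 3) * n := by
  rw [card_Bk]
  nlinarith

theorem num_le (p : Pat) {n : ℕ} (hn : 1 ≤ n) (M : ℤ) (a : Bool) :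
    num p n M a ≤ (Fintype.card p.K + 3) * n * S0 p M := by
  classical
  calc num p n M a ≤ ∑ r : Rw p, ∑ b : Bk p n, (Sf p n M r b).card := by
        unfold num
        exact Finset.sum_le_sum_of_subset (Finset.filter_subset _ _)
    _ = ∑ b : Bk p n, ∑ r : Rw p, (Sf p n M r b).card := Finset.sum_comm
    _ ≤ ∑ _b : Bk p n, S0 p M := Finset.sum_le_sum fun b _ => sum_le_S0 p n M b
    _ = Fintype.card (Bk p n) * S0 p M := by
        rw [Finset.sum_const, Finset.card_univ, smul_eq_mul]
    _ ≤ _ := Nat.mul_le_mul_right _ (card_Bk_le p hn)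

/-- at least `n` ports of copy `false` -/
theorem le_num {p : Pat} {n : ℕ} {M L : ℤ} (hB : Big p M L) : n ≤ num p n M false := by
  rw [num_eq]
  refine le_trans ?_ (Nat.le_add_left _ _)
  rw [Fintype.sum_sum_type, Fintype.sum_sum_type]
  refine le_trans ?_ (Nat.le_add_left _ _)
  refine le_trans ?_ (Nat.le_add_left _ _)
  simp only [card_Sf hB, Au, fu, one_supp, Finset.card_singleton, mul_one]
  have d6 : ({0, 1, 3, 4, 5, 6, 7} : Finset ℕ).card = 7 := by decide
  rw [d6]
  simp only [Finset.sum_const, Finset.card_univ, Fintype.card_fin, smul_eq_mul]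
  omega

theorem blocks {p : Pat} {n : ℕ} {M L : ℤ} (hB : Big p M L) (hn : 1 ≤ n) :
    Fintype.card (Bk p n) ≤ DD p M * num p n M false := by
  have h1 := card_Bk_le p hn
  have h2 : n ≤ num p n M false := le_num hB
  calc Fintype.card (Bk p n) ≤ (Fintype.card p.K + 3) * n := h1
    _ ≤ (Fintype.card p.K + 3) * num p n M false := Nat.mul_le_mul_left _ h2
    _ ≤ DD p M * num p n M false := by
        apply Nat.mul_le_mul_right
        unfold DD
        nlinarith [Nat.zero_le (S0 p M), Nat.zero_le (Fintype.card p.K)]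

/-- every type has at least `n` blocks -/
theorem fibre {p : Pat} {n : ℕ} (a : Ty p) :
    n ≤ (univ.filter (fun b : Bk p n => ty b = a)).card := by
  classical
  have key : ∀ f : Fin n → Bk p n, Function.Injective f → (∀ j, ty (f j) = a) →
      n ≤ (univ.filter (fun b : Bk p n => ty b = a)).card := by
    intro f hf ha
    calc n = (univ : Finset (Fin n)).card := by simp
      _ = ((univ : Finset (Fin n)).image f).card := (Finset.card_image_of_injective _ hf).symm
      _ ≤ _ := by
        apply Finset.card_le_card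
        intro b hb
        rw [Finset.mem_image] at hb
        obtain ⟨j, _, rfl⟩ := hb
        rw [Finset.mem_filter]
        exact ⟨Finset.mem_univ _, ha j⟩
  rcases a with k | (_ | _)
  · exact key (fun j => Sum.inl (k, j)) (fun i j h => by simpa using h) (fun j => rfl)
  · exact key (fun j => Sum.inr (Sum.inr j)) (fun i j h => by simpa using h) (fun j => rfl)
  · exact key (fun j => Sum.inr (Sum.inl j.castSucc)) (fun i j h => by simpa using h)
      (fun j => rfl)

/-- `labels`: for two ports `(r, b, h)`, `(r', b, h')` the number of blocks `≠ b0` that contain ports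
of the rows `r`, `r'` at distance `h' - h` is at least `num / DD`. -/
theorem labels (p : Pat) {n : ℕ} (hn : 2 ≤ n) (M : ℤ) (b0 b : Bk p n) (r r' : Rw p) (h h' : ℤ)
    (hh : h ∈ Sf p n M r b) (hh' : h' ∈ Sf p n M r' b) :
    num p n M false ≤ DD p M * (univ.filter (fun b1 : Bk p n => b1 ≠ b0 ∧
      ∃ h1 ∈ Sf p n M r b1, h1 + (h' - h) ∈ Sf p n M r' b1)).card := by
  classical
  set A := univ.filter (fun b1 : Bk p n => b1 ≠ b0 ∧
      ∃ h1 ∈ Sf p n M r b1, h1 + (h' - h) ∈ Sf p n M r' b1) with hA
  have h1 : (univ.filter (fun b1 : Bk p n => ty b1 = ty b)).erase b0 ⊆ A := by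
    intro b1 hb1
    rw [Finset.mem_erase, Finset.mem_filter] at hb1
    rw [hA, Finset.mem_filter]
    refine ⟨Finset.mem_univ _, hb1.1, h, ?_, ?_⟩
    · rw [Sf_ty, hb1.2.2, ← Sf_ty]; exact hh
    · rw [Sf_ty, hb1.2.2, ← Sf_ty]
      have : h + (h' - h) = h' := by ring
      rw [this]; exact hh'
  have h2 : n ≤ A.card + 1 := by
    have h3 := Finset.card_le_card h1
    have h4 := fibre (n := n) (ty b)
    have h5 := Finset.pred_card_le_card_erase (s := univ.filter (fun b1 : Bk p n => ty b1 = ty b))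
      (a := b0)
    omega
  have h6 : n ≤ 2 * A.card := by omega
  calc num p n M false ≤ (Fintype.card p.K + 3) * n * S0 p M := num_le p (by omega) M false
    _ ≤ (Fintype.card p.K + 3) * (2 * A.card) * (S0 p M + 1) := by
        apply Nat.mul_le_mul
        · exact Nat.mul_le_mul_left _ h6
        · omega
    _ = DD p M * A.card := by unfold DD; ring

end Vale.Agent.P194.M.Ok
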