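import Vale.Agent.P194.M.Inst
import Vale.Agent.P194.M.Ok

/-! P194, variant M': the system of ports and its conditions `ports`, `blocks`, `labels`. -/

namespace Vale.Agent.P194.M

open Finset Vale.Agent.P201.Z

/-- rows and blocks of variant M' -/
noncomputable def ps (p : Pat) (n : ℕ) (M : ℤ) : PS where
  R := Rw p
  B := Bk p n
  cpy := cpy
  P := Pr p M
  Q := Qb p n M

theorem ps_S (p : Pat) (n : ℕ) (M : ℤ) (r : Rw p) (b : Bk p n) :
    (ps p n M).S r b = Sf p n M r b := rfl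

theorem ps_num (p : Pat) (n : ℕ) (M : ℤ) (a : Bool) : (ps p n M).num a = num p n M a := rfl

/-- the unmatched port -/
noncomputable def q0 {p : Pat} {M L : ℤ} (n : ℕ) (hB : Big p M L) : (ps p n M).Pt :=
  ⟨((Sum.inr true : Rw p), (Sum.inr (Sum.inl 0) : Bk p n)), ⟨0, zero_mem (n := n) hB⟩⟩

theorem bal {p : Pat} {M L : ℤ} (n : ℕ) (hB : Big p M L) : PS.Bal (q0 n hB) :=
  ⟨num_bal hB, rfl⟩

/-- the system of ports -/
noncomputable def sys {p : Pat} {M L : ℤ} (n : ℕ) (hB : Big p M L) : Vale.Agent.P201.S.Sys :=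
  PS.toSys (q0 n hB) (bal n hB)

theorem sys_card {p : Pat} {M L : ℤ} (n : ℕ) (hB : Big p M L) :
    Fintype.card (sys n hB).C = num p n M false := PS.toSys_card (q0 n hB) (bal n hB)

theorem le_card {p : Pat} {M L : ℤ} (n : ℕ) (hB : Big p M L) : n ≤ Fintype.card (sys n hB).C := by
  rw [sys_card]
  exact Ok.le_num hB

theorem ok_of {p : Pat} {M L : ℤ} {n : ℕ} (hB : Big p M L) (hn : 2 ≤ n)
    (hw : 2 * Vale.Agent.P201.S.nu2 (sys n hB) ≤ (num p n M false) ^ 2) :
    (sys n hB).Ok (Ok.DD p M) where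
  ports b := PS.ports_le (q0 n hB) (bal n hB) (D := Ok.DD p M) (fun b => Ok.ports p n M b) b
  blocks := by
    rw [sys_card]
    exact Ok.blocks hB (by omega)
  labels := by
    intro q q' hb hne
    rw [sys_card]
    have h1 := Ok.labels p hn M (q0 n hB).1.2 ((sys n hB).blk q) ((sys n hB).rc q)
      ((sys n hB).rc q') ((sys n hB).ht q) ((sys n hB).ht q')
      (PS.pm (q0 n hB) (bal n hB) q).2.2 (by rw [hb]; exact (PS.pm (q0 n hB) (bal n hB) q').2.2)
    refine h1.trans (Nat.mul_le_mul_left _ ?_)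
    refine PS.le_nu (q0 n hB) (bal n hB) _ _ _ ?_
    by_contra hcon
    rw [not_or, not_not, not_not] at hcon
    apply hne
    refine (sys n hB).inj q q' hcon.1 hb ?_
    have := hcon.2
    omega
  w := by
    rw [sys_card]
    exact hw

end Vale.Agent.P194.M
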