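import Vale.Agent.P194.M.Nu2

/-! P194: additive quadruples (helper477). -/

namespace Vale.Agent.P194.M

open Finset Vale.Agent.P201.S

/-- additive quadruples `b - a = b' - a'` -/
def E4 (A B A' B' : Finset ℤ) : ℕ :=
  (((A ×ˢ B) ×ˢ (A' ×ˢ B')).filter (fun x => x.1.2 - x.1.1 = x.2.2 - x.2.1)).card

/-- the set `M a + h` -/
def dz (M : ℤ) (A F : Finset ℤ) : Finset ℤ := (A ×ˢ F).image (fun x => M * x.1 + x.2)

theorem mem_dz {M : ℤ} {A F : Finset ℤ} {z : ℤ} :
    z ∈ dz M A F ↔ ∃ a ∈ A, ∃ h ∈ F, M * a + h = z := by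
  unfold dz
  simp only [mem_image, mem_product, Prod.exists]
  constructor
  · rintro ⟨a, b, ⟨h1, h2⟩, h3⟩
    exact ⟨a, h1, b, h2, h3⟩
  · rintro ⟨a, h1, b, h2, h3⟩
    exact ⟨a, b, ⟨h1, h2⟩, h3⟩

theorem card_dz_le (M : ℤ) (A F : Finset ℤ) : (dz M A F).card ≤ A.card * F.card := by
  unfold dz
  exact card_image_le.trans (card_product _ _).le

theorem card_dz {M H : ℤ} {A F : Finset ℤ} (hM : 2 * H < M) (hF : ∀ h ∈ F, |h| ≤ H) :
    (dz M A F).card = A.card * F.card := by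
  unfold dz
  rw [card_image_of_injOn, card_product]
  rintro ⟨a, h⟩ hx ⟨b, k⟩ hy hxy
  have h1 := abs_le.1 (hF h (mem_product.1 (Finset.mem_coe.1 hx)).2)
  have h2 := abs_le.1 (hF k (mem_product.1 (Finset.mem_coe.1 hy)).2)
  simp only at hxy
  have h3 : a = b := by
    by_contra hne
    have h4 : M * (a - b) = k - h := by linarith
    rcases lt_or_gt_of_ne hne with h5 | h5
    · nlinarith
    · nlinarith
  subst h3
  rw [Prod.mk.injEq]
  exact ⟨rfl, by linarith⟩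

theorem E4_dz {M H : ℤ} {A1 A2 A3 A4 F1 F2 F3 F4 : Finset ℤ} (hM : 4 * H < M)
    (h1 : ∀ h ∈ F1, |h| ≤ H) (h2 : ∀ h ∈ F2, |h| ≤ H) (h3 : ∀ h ∈ F3, |h| ≤ H)
    (h4 : ∀ h ∈ F4, |h| ≤ H) :
    E4 (dz M A1 F1) (dz M A2 F2) (dz M A3 F3) (dz M A4 F4) ≤
      E4 A1 A2 A3 A4 * E4 F1 F2 F3 F4 := by
  unfold E4
  rw [← card_product]
  refine le_trans (card_le_card (t := Finset.image
    (fun y : ((ℤ × ℤ) × (ℤ × ℤ)) × ((ℤ × ℤ) × (ℤ × ℤ)) =>
      ((M * y.1.1.1 + y.2.1.1, M * y.1.1.2 + y.2.1.2),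
        (M * y.1.2.1 + y.2.2.1, M * y.1.2.2 + y.2.2.2))) _) ?_) card_image_le
  rintro ⟨⟨x1, x2⟩, ⟨x3, x4⟩⟩ hx
  simp only [mem_filter, mem_product] at hx
  obtain ⟨⟨⟨m1, m2⟩, m3, m4⟩, he⟩ := hx
  obtain ⟨a1, ha1, b1, hb1, rfl⟩ := mem_dz.1 m1
  obtain ⟨a2, ha2, b2, hb2, rfl⟩ := mem_dz.1 m2
  obtain ⟨a3, ha3, b3, hb3, rfl⟩ := mem_dz.1 m3
  obtain ⟨a4, ha4, b4, hb4, rfl⟩ := mem_dz.1 m4
  have e1 := abs_le.1 (h1 b1 hb1)
  have e2 := abs_le.1 (h2 b2 hb2)
  have e3 := abs_le.1 (h3 b3 hb3)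
  have e4 := abs_le.1 (h4 b4 hb4)
  have h5 : a2 - a1 = a4 - a3 := by
    by_contra hne
    have h6 : M * ((a2 - a1) - (a4 - a3)) = (b4 - b3) - (b2 - b1) := by linarith
    rcases lt_or_gt_of_ne hne with h7 | h7
    · nlinarith
    · nlinarith
  have h6 : b2 - b1 = b4 - b3 := by
    have h7 : M * ((a2 - a1) - (a4 - a3)) = (b4 - b3) - (b2 - b1) := by linarith
    rw [h5, sub_self, mul_zero] at h7
    linarith
  refine mem_image.2 ⟨(((a1, a2), (a3, a4)), ((b1, b2), (b3, b4))), ?_, rfl⟩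
  simp only [mem_product, mem_filter]
  exact ⟨⟨⟨⟨ha1, ha2⟩, ha3, ha4⟩, h5⟩, ⟨⟨hb1, hb2⟩, hb3, hb4⟩, h6⟩

theorem E4_two : E4 {0, 3} {0, 3} {0, 3} {0, 3} = 6 := by decide

/-- pairs of units with the same label, in terms of additive quadruples -/
theorem E2_le_E4 (S : Sys) (N : S.R → S.B → Finset ℤ)
    (hN : ∀ q : Port S, S.ht q ∈ N (S.rc q) (S.blk q)) (mr : S.R → Bool) (mb : S.B → Bool) :
    E2 (lb S) ((Un S).filter (fun u =>
      mr (S.rc u.1) = true ∧ mr (S.rc u.2) = true ∧ mb (S.blk u.1) = true)) ≤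
    ∑ b ∈ univ.filter (fun b => mb b = true), ∑ b' ∈ univ.filter (fun b => mb b = true),
      ∑ r ∈ univ.filter (fun r => mr r = true), ∑ r' ∈ univ.filter (fun r => mr r = true),
        E4 (N r b) (N r' b) (N r b') (N r' b') := by
  classical
  unfold E2
  rw [Finset.card_eq_sum_card_fiberwise
    (f := fun x => (S.blk x.1.1, (S.blk x.2.1, (S.rc x.1.1, S.rc x.1.2))))
    (t := (univ.filter (fun b => mb b = true)) ×ˢ ((univ.filter (fun b => mb b = true)) ×ˢ
      ((univ.filter (fun r => mr r = true)) ×ˢ (univ.filter (fun r => mr r = true)))))]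
  · rw [sum_product]
    refine sum_le_sum fun b _ => ?_
    rw [sum_product]
    refine sum_le_sum fun b' _ => ?_
    rw [sum_product]
    refine sum_le_sum fun r _ => sum_le_sum fun r' _ => ?_
    unfold E4
    refine card_le_card_of_injOn (fun x => ((S.ht x.1.1, S.ht x.1.2), (S.ht x.2.1, S.ht x.2.2)))
      ?_ ?_
    · rintro ⟨⟨q1, q2⟩, ⟨q3, q4⟩⟩ hx
      have hx' := mem_filter.1 (Finset.mem_coe.1 hx)
      have h1 := mem_filter.1 hx'.1
      have h2 := mem_product.1 h1.1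
      have h3 := (mem_filter.1 (mem_filter.1 h2.1).1).2
      have h4 := (mem_filter.1 (mem_filter.1 h2.2).1).2
      have h5 := h1.2
      have h6 := hx'.2
      simp only [lb, Prod.mk.injEq] at h5 h6 h3 h4
      obtain ⟨e1, e2, e3, e4⟩ := h6
      refine Finset.mem_coe.2 (mem_filter.2 ⟨mem_product.2 ⟨mem_product.2 ⟨?_, ?_⟩,
        mem_product.2 ⟨?_, ?_⟩⟩, h5.2.2⟩)
      · have := hN q1; rwa [e3, e1] at this
      · have := hN q2; rwa [e4, ← h3.1, e1] at this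
      · have := hN q3; rwa [← h5.1, e3, e2] at this
      · have := hN q4; rwa [← h5.2.1, e4, ← h4.1, e2] at this
    · rintro ⟨⟨q1, q2⟩, ⟨q3, q4⟩⟩ hx ⟨⟨p1, p2⟩, ⟨p3, p4⟩⟩ hy hxy
      have hx' := mem_filter.1 (Finset.mem_coe.1 hx)
      have h1 := mem_filter.1 hx'.1
      have h2 := mem_product.1 h1.1
      have h3 := (mem_filter.1 (mem_filter.1 h2.1).1).2
      have h4 := (mem_filter.1 (mem_filter.1 h2.2).1).2
      have h5 := h1.2
      have h6 := hx'.2
      have hy' := mem_filter.1 (Finset.mem_coe.1 hy)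
      have g1 := mem_filter.1 hy'.1
      have g2 := mem_product.1 g1.1
      have g3 := (mem_filter.1 (mem_filter.1 g2.1).1).2
      have g4 := (mem_filter.1 (mem_filter.1 g2.2).1).2
      have g5 := g1.2
      have g6 := hy'.2
      simp only [lb, Prod.mk.injEq] at h5 h6 h3 h4 g5 g6 g3 g4 hxy
      obtain ⟨e1, e2, e3, e4⟩ := h6
      obtain ⟨f1, f2, f3, f4⟩ := g6
      have k1 : q1 = p1 := S.inj _ _ (e3.trans f3.symm) (e1.trans f1.symm) hxy.1.1
      have k2 : q2 = p2 := S.inj _ _ (e4.trans f4.symm)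
        (by rw [← h3.1, ← g3.1, e1, f1]) hxy.1.2
      have k3 : q3 = p3 := S.inj _ _ (by rw [← h5.1, ← g5.1, e3, f3]) (e2.trans f2.symm) hxy.2.1
      have k4 : q4 = p4 := S.inj _ _ (by rw [← h5.2.1, ← g5.2.1, e4, f4])
        (by rw [← h4.1, ← g4.1, e2, f2]) hxy.2.2
      rw [k1, k2, k3, k4]
  · rintro ⟨⟨q1, q2⟩, ⟨q3, q4⟩⟩ hx
    have h1 := mem_filter.1 (Finset.mem_coe.1 hx)
    have h2 := mem_product.1 h1.1
    have h3 := (mem_filter.1 h2.1).2
    have h4 := (mem_filter.1 h2.2).2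
    simp only at h3 h4
    refine Finset.mem_coe.2 (mem_product.2 ⟨mem_filter.2 ⟨mem_univ _, h3.2.2⟩,
      mem_product.2 ⟨mem_filter.2 ⟨mem_univ _, h4.2.2⟩, mem_product.2
        ⟨mem_filter.2 ⟨mem_univ _, h3.1⟩, mem_filter.2 ⟨mem_univ _, h3.2.1⟩⟩⟩⟩)

/-- ports of a row in a block -/
theorem card_port_le (S : Sys) (N : S.R → S.B → Finset ℤ)
    (hN : ∀ q : Port S, S.ht q ∈ N (S.rc q) (S.blk q)) (r : S.R) (b : S.B) :
    (univ.filter (fun q : Port S => S.rc q = r ∧ S.blk q = b)).card ≤ (N r b).card := by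
  refine card_le_card_of_injOn (fun q => S.ht q) ?_ ?_
  · intro q hq
    have h := (mem_filter.1 (Finset.mem_coe.1 hq)).2
    have := hN q
    rw [h.1, h.2] at this
    exact Finset.mem_coe.2 this
  · intro q hq q' hq' h
    have h1 := (mem_filter.1 (Finset.mem_coe.1 hq)).2
    have h2 := (mem_filter.1 (Finset.mem_coe.1 hq')).2
    exact S.inj _ _ (h1.1.trans h2.1.symm) (h1.2.trans h2.2.symm) h

/-- the complete bound in terms of the sets of heights -/
theorem nu2_le_N (S : Sys) (N : S.R → S.B → Finset ℤ)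
    (hN : ∀ q : Port S, S.ht q ∈ N (S.rc q) (S.blk q)) (mr : S.R → Bool) (mb : S.B → Bool)
    (A e x s t m : ℕ)
    (hA : ∑ b ∈ univ.filter (fun b => mb b = true), ∑ b' ∈ univ.filter (fun b => mb b = true),
      ∑ r ∈ univ.filter (fun r => mr r = true), ∑ r' ∈ univ.filter (fun r => mr r = true),
        E4 (N r b) (N r' b) (N r b') (N r' b') ≤ A)
    (he : ∀ b, ∑ r ∈ univ.filter (fun r => mr r = false), (N r b).card ≤ e)
    (hx : ∀ r, mr r = false → ∑ b, (N r b).card ≤ x)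
    (hs : (univ.filter (fun b : S.B => mb b = false)).card ≤ s)
    (ht : ∀ r b, mr r = true → mb b = false → (N r b).card ≤ t)
    (hm : (univ.filter (fun r : S.R => mr r = true)).card ≤ m) :
    49 * nu2 S ≤ 50 * A + 2450 * (s * (m * t) ^ 2 * (s * t) + 4 * e * Fintype.card S.C * x) := by
  classical
  refine nu2_le S mr mb A e x s t m ((E2_le_E4 S N hN mr mb).trans hA) ?_ ?_ hs ?_ hm
  · intro b
    refine le_trans ?_ (he b)
    rw [Finset.card_eq_sum_card_fiberwise (f := fun q => S.rc q)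
      (t := univ.filter (fun r : S.R => mr r = false))]
    · refine sum_le_sum fun r _ => le_trans (card_le_card ?_) (card_port_le S N hN r b)
      intro q hq
      simp only [mem_filter, mem_univ, true_and] at hq ⊢
      exact ⟨hq.2, hq.1.1⟩
    · intro q hq
      have := mem_filter.1 (Finset.mem_coe.1 hq)
      exact Finset.mem_coe.2 (mem_filter.2 ⟨mem_univ _, this.2.2⟩)
  · intro r hr
    refine le_trans ?_ (hx r hr)
    rw [Finset.card_eq_sum_card_fiberwise (f := fun q => S.blk q) (t := univ)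
      (fun _ _ => by simp)]
    refine sum_le_sum fun b _ => le_trans (card_le_card ?_) (card_port_le S N hN r b)
    intro q hq
    simp only [mem_filter, mem_univ, true_and] at hq ⊢
    exact hq
  · intro r b hr hb
    exact (card_port_le S N hN r b).trans (ht r b hr hb)

end Vale.Agent.P194.M
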