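import Vale.Agent.P194.M.Def
import Vale.Agent.P194.M.E4

/-! P194, variant M': the clause `w` of `Sys.Ok` (helper477). -/

namespace Vale.Agent.P194.M

open Finset Vale.Agent.P201.S

section

variable {p : Vale.Agent.P201.Z.Pat} {n : ℕ} {M L : ℤ}

/-- main row -/
def mr (r : Rw p) : Bool := r.isLeft

/-- main block -/
def mb (b : Bk p n) : Bool := b.isLeft

theorem dil_eq_dz (M : ℤ) (s : Finset ℕ) (F : Finset ℤ) :
    dil M s F = dz M (s.image (fun a : ℕ => (a : ℤ))) F := by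
  ext z
  rw [mem_dz]
  unfold dil
  simp only [mem_image, mem_product, Prod.exists]
  constructor
  · rintro ⟨a, h, ⟨h1, h2⟩, rfl⟩
    exact ⟨a, ⟨a, h1, rfl⟩, h, h2, rfl⟩
  · rintro ⟨_, ⟨a, h1, rfl⟩, h, h2, rfl⟩
    exact ⟨a, h, ⟨h1, h2⟩, rfl⟩

theorem E4_main (hB : Big p M L) (x x' : p.I × Bool) (y y' : p.K × Fin n) :
    E4 (Sf p n M (Sum.inl x) (Sum.inl y)) (Sf p n M (Sum.inl x') (Sum.inl y))
      (Sf p n M (Sum.inl x) (Sum.inl y')) (Sf p n M (Sum.inl x') (Sum.inl y')) ≤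
      6 * E4 (p.N x.1 y.1) (p.N x'.1 y.1) (p.N x.1 y'.1) (p.N x'.1 y'.1) := by
  have hM : 4 * L < M := by have := hB.lt; have := hB.L0; linarith
  rw [Sf_eq hB, Sf_eq hB, Sf_eq hB, Sf_eq hB, dil_eq_dz, dil_eq_dz, dil_eq_dz, dil_eq_dz]
  have h3 : ({0, 3} : Finset ℕ).image (fun a : ℕ => (a : ℤ)) = {0, 3} := by decide
  simp only [Au, fu, h3]
  refine (E4_dz hM (hB.hN _ _) (hB.hN _ _) (hB.hN _ _) (hB.hN _ _)).trans ?_
  rw [E4_two]

theorem sum_isLeft {A B : Type} [Fintype A] [Fintype B] (f : A ⊕ B → ℕ) :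
    ∑ r ∈ univ.filter (fun r : A ⊕ B => r.isLeft = true), f r = ∑ a, f (Sum.inl a) := by
  rw [Finset.sum_filter, Fintype.sum_sum_type]
  simp

theorem sum_isRight {A B : Type} [Fintype A] [Fintype B] (f : A ⊕ B → ℕ) :
    ∑ r ∈ univ.filter (fun r : A ⊕ B => r.isLeft = false), f r = ∑ a, f (Sum.inr a) := by
  rw [Finset.sum_filter, Fintype.sum_sum_type]
  simp

/-- the main sum -/
theorem main_sum (hB : Big p M L) :
    ∑ b ∈ univ.filter (fun b : Bk p n => mb b = true),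
      ∑ b' ∈ univ.filter (fun b : Bk p n => mb b = true),
      ∑ r ∈ univ.filter (fun r : Rw p => mr r = true),
      ∑ r' ∈ univ.filter (fun r : Rw p => mr r = true),
        E4 (Sf p n M r b) (Sf p n M r' b) (Sf p n M r b') (Sf p n M r' b') ≤
      24 * n ^ 2 * p.W4 := by
  unfold mb mr
  rw [sum_isLeft]
  simp_rw [sum_isLeft]
  have h1 : ∑ y : p.K × Fin n, ∑ y' : p.K × Fin n, ∑ x : p.I × Bool, ∑ x' : p.I × Bool,
      E4 (Sf p n M (Sum.inl x) (Sum.inl y)) (Sf p n M (Sum.inl x') (Sum.inl y))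
        (Sf p n M (Sum.inl x) (Sum.inl y')) (Sf p n M (Sum.inl x') (Sum.inl y')) ≤
      ∑ y : p.K × Fin n, ∑ y' : p.K × Fin n, ∑ x : p.I × Bool, ∑ x' : p.I × Bool,
      6 * E4 (p.N x.1 y.1) (p.N x'.1 y.1) (p.N x.1 y'.1) (p.N x'.1 y'.1) :=
    sum_le_sum fun y _ => sum_le_sum fun y' _ => sum_le_sum fun x _ => sum_le_sum fun x' _ =>
      E4_main hB x x' y y'
  refine h1.trans (le_of_eq ?_)
  have h2 : p.W4 = ∑ k, ∑ k', ∑ i, ∑ i', E4 (p.N i k) (p.N i' k) (p.N i k') (p.N i' k') := rfl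
  rw [h2]
  simp only [Fintype.sum_prod_type, Finset.sum_const, Finset.card_univ, Fintype.card_fin,
    Fintype.card_bool, smul_eq_mul]
  simp only [← Finset.mul_sum]
  ring

theorem extra_block (hB : Big p M L) {q : ℕ} (hq : ∀ k, (p.Q k).coeff.support.card ≤ q)
    (b : Bk p n) :
    ∑ r ∈ univ.filter (fun r : Rw p => mr r = false), (Sf p n M r b).card ≤ 4 * q + 13 := by
  unfold mr
  rw [sum_isRight, Fintype.sum_bool, card_Sf hB, card_Sf hB]
  rcases b with y | (y | y)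
  · simp only [Au, fu]
    have d1 : ({0, 6} : Finset ℕ).card = 2 := by decide
    have d2 : ({0, 3} : Finset ℕ).card = 2 := by decide
    rw [d1, d2]
    have := hq y.1
    omega
  · simp only [Au, fu, one_supp, Finset.card_singleton]
    have d1 : ({0, 4, 5, 7, 8, 9} : Finset ℕ).card = 6 := by decide
    have d2 : ({0, 3, 4, 5, 6} : Finset ℕ).card = 5 := by decide
    rw [d1, d2]
    omega
  · simp only [Au, fu, one_supp, Finset.card_singleton]
    have d1 : ({0, 1, 5, 8, 9, 10} : Finset ℕ).card = 6 := by decide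
    have d2 : ({0, 1, 3, 4, 5, 6, 7} : Finset ℕ).card = 7 := by decide
    rw [d1, d2]
    omega

theorem extra_row (hB : Big p M L) {q : ℕ} (hq : ∀ k, (p.Q k).coeff.support.card ≤ q)
    (r : Rw p) (hr : mr r = false) :
    ∑ b : Bk p n, (Sf p n M r b).card ≤ 2 * n * Fintype.card p.K * q + 7 * (2 * n + 1) := by
  rcases r with x | a
  · simp [mr] at hr
  have h1 : ∀ b : Bk p n, (Sf p n M (Sum.inr a) b).card ≤ match b with
      | Sum.inl _ => 2 * q
      | Sum.inr _ => 7 := by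
    intro b
    rw [card_Sf hB]
    rcases b with y | (y | y)
    · have d1 : ({0, 6} : Finset ℕ).card = 2 := by decide
      have d2 : ({0, 3} : Finset ℕ).card = 2 := by decide
      cases a <;> simp only [Au, fu]
      · rw [d2]; exact Nat.mul_le_mul_left _ (hq y.1)
      · rw [d1]; exact Nat.mul_le_mul_left _ (hq y.1)
    · have d1 : ({0, 4, 5, 7, 8, 9} : Finset ℕ).card = 6 := by decide
      have d2 : ({0, 3, 4, 5, 6} : Finset ℕ).card = 5 := by decide
      cases a <;> simp only [Au, fu, one_supp, Finset.card_singleton]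
      · rw [d2]; omega
      · rw [d1]; omega
    · have d1 : ({0, 1, 5, 8, 9, 10} : Finset ℕ).card = 6 := by decide
      have d2 : ({0, 1, 3, 4, 5, 6, 7} : Finset ℕ).card = 7 := by decide
      cases a <;> simp only [Au, fu, one_supp, Finset.card_singleton]
      · rw [d2]
      · rw [d1]; omega
  refine (Finset.sum_le_sum fun b _ => h1 b).trans ?_
  rw [Fintype.sum_sum_type]
  simp only [Finset.sum_const, Finset.card_univ, Fintype.card_prod, Fintype.card_fin,
    Fintype.card_sum, smul_eq_mul]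
  apply le_of_eq
  ring

theorem main_special (hB : Big p M L) {pp : ℕ} (hp : ∀ i, (p.P i).coeff.support.card ≤ pp)
    (r : Rw p) (b : Bk p n) (hr : mr r = true) (hb : mb b = false) :
    (Sf p n M r b).card ≤ 7 * pp := by
  rcases r with x | a
  · rcases b with y | (y | y)
    · simp [mb] at hb
    · rw [card_Sf hB]
      simp only [Au, fu]
      have d2 : ({0, 3, 4, 5, 6} : Finset ℕ).card = 5 := by decide
      rw [d2]
      have := hp x.1
      omega
    · rw [card_Sf hB]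
      simp only [Au, fu]
      have d2 : ({0, 1, 3, 4, 5, 6, 7} : Finset ℕ).card = 7 := by decide
      rw [d2]
      exact Nat.mul_le_mul_left _ (hp x.1)
  · simp [mr] at hr

theorem card_main_rows : (univ.filter (fun r : Rw p => mr r = true)).card =
    2 * Fintype.card p.I := by
  have := sum_isLeft (A := p.I × Bool) (B := Bool) (fun _ => 1)
  simp only [Finset.sum_const, smul_eq_mul, mul_one, Finset.card_univ, Fintype.card_prod,
    Fintype.card_bool] at this
  unfold mr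
  rw [this, mul_comm]

theorem card_special : (univ.filter (fun b : Bk p n => mb b = false)).card = 2 * n + 1 := by
  have := sum_isRight (A := p.K × Fin n) (B := Fin (n + 1) ⊕ Fin n) (fun _ => 1)
  simp only [Finset.sum_const, smul_eq_mul, mul_one, Finset.card_univ, Fintype.card_sum,
    Fintype.card_fin] at this
  unfold mb
  rw [this]
  ring

/-- arithmetic of the final inequality -/
theorem w_arith (W4 T n I K q pp C nu Lam : ℕ) (hn : 1 ≤ n) (hK : 1 ≤ K) (hq1 : 1 ≤ q)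
    (hW : 25 * W4 ≤ 2 * T ^ 2) (hq : Lam * q ^ 2 ≤ T) (hp : Lam * pp ^ 3 ≤ T ^ 2)
    (hLam : 4900 * (3087 * I ^ 2 + 782 * K) ≤ Lam) (hC : 2 * n * T ≤ C)
    (h : 49 * nu ≤ 50 * (24 * n ^ 2 * W4) + 2450 * ((2 * n + 1) * (2 * I * (7 * pp)) ^ 2 *
      ((2 * n + 1) * (7 * pp)) + 4 * (4 * q + 13) * C * (2 * n * K * q + 7 * (2 * n + 1)))) :
    2 * nu ≤ C ^ 2 := by
  set X1 := (2 * n + 1) * (2 * I * (7 * pp)) ^ 2 * ((2 * n + 1) * (7 * pp)) with hX1
  set X2 := 4 * (4 * q + 13) * C * (2 * n * K * q + 7 * (2 * n + 1)) with hX2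
  have a1 : X1 ≤ 12348 * I ^ 2 * n ^ 2 * pp ^ 3 := by
    calc X1 = (2 * n + 1) ^ 2 * (1372 * I ^ 2 * pp ^ 3) := by rw [hX1]; ring
      _ ≤ (3 * n) ^ 2 * (1372 * I ^ 2 * pp ^ 3) :=
        Nat.mul_le_mul_right _ (Nat.pow_le_pow_left (by omega) 2)
      _ = 12348 * I ^ 2 * n ^ 2 * pp ^ 3 := by ring
  have hKq : 1 ≤ K * q := Nat.mul_le_mul hK hq1
  have a2 : X2 ≤ 1564 * K * n * q ^ 2 * C := by
    have b1 : 4 * q + 13 ≤ 17 * q := by omega
    have b2 : 2 * n * K * q + 7 * (2 * n + 1) ≤ 23 * n * K * q := by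
      have : n * 1 ≤ n * (K * q) := Nat.mul_le_mul_left _ hKq
      nlinarith
    calc X2 = (4 * C) * ((4 * q + 13) * (2 * n * K * q + 7 * (2 * n + 1))) := by rw [hX2]; ring
      _ ≤ (4 * C) * ((17 * q) * (23 * n * K * q)) :=
        Nat.mul_le_mul_left _ (Nat.mul_le_mul b1 b2)
      _ = 1564 * K * n * q ^ 2 * C := by ring
  have a3 : Lam * X1 ≤ 3087 * I ^ 2 * C ^ 2 := by
    calc Lam * X1 ≤ Lam * (12348 * I ^ 2 * n ^ 2 * pp ^ 3) := Nat.mul_le_mul_left _ a1
      _ = 12348 * I ^ 2 * n ^ 2 * (Lam * pp ^ 3) := by ring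
      _ ≤ 12348 * I ^ 2 * n ^ 2 * T ^ 2 := Nat.mul_le_mul_left _ hp
      _ = 3087 * I ^ 2 * (2 * n * T) ^ 2 := by ring
      _ ≤ 3087 * I ^ 2 * C ^ 2 := Nat.mul_le_mul_left _ (Nat.pow_le_pow_left hC 2)
  have a4 : Lam * X2 ≤ 782 * K * C ^ 2 := by
    calc Lam * X2 ≤ Lam * (1564 * K * n * q ^ 2 * C) := Nat.mul_le_mul_left _ a2
      _ = 1564 * K * n * C * (Lam * q ^ 2) := by ring
      _ ≤ 1564 * K * n * C * T := Nat.mul_le_mul_left _ hq
      _ = 782 * K * C * (2 * n * T) := by ring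
      _ ≤ 782 * K * C * C := Nat.mul_le_mul_left _ hC
      _ = 782 * K * C ^ 2 := by ring
  have a5 : 50 * (24 * n ^ 2 * W4) ≤ 24 * C ^ 2 := by
    calc 50 * (24 * n ^ 2 * W4) = 48 * n ^ 2 * (25 * W4) := by ring
      _ ≤ 48 * n ^ 2 * (2 * T ^ 2) := Nat.mul_le_mul_left _ hW
      _ = 24 * (2 * n * T) ^ 2 := by ring
      _ ≤ 24 * C ^ 2 := Nat.mul_le_mul_left _ (Nat.pow_le_pow_left hC 2)
  have a6 : (3087 * I ^ 2 + 782 * K) * (4900 * (X1 + X2)) ≤ (3087 * I ^ 2 + 782 * K) * C ^ 2 := by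
    calc (3087 * I ^ 2 + 782 * K) * (4900 * (X1 + X2))
        = (4900 * (3087 * I ^ 2 + 782 * K)) * (X1 + X2) := by ring
      _ ≤ Lam * (X1 + X2) := Nat.mul_le_mul_right _ hLam
      _ = Lam * X1 + Lam * X2 := by ring
      _ ≤ 3087 * I ^ 2 * C ^ 2 + 782 * K * C ^ 2 := Nat.add_le_add a3 a4
      _ = (3087 * I ^ 2 + 782 * K) * C ^ 2 := by ring
  have a7 : 4900 * (X1 + X2) ≤ C ^ 2 :=
    Nat.le_of_mul_le_mul_left a6 (by positivity)
  omega

theorem injective_sum_le {A B : Type} [Fintype A] [Fintype B] (φ : A → B)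
    (hφ : Function.Injective φ) (P : B → Bool) (v : Bool) (f : B → ℕ) :
    ∑ a ∈ univ.filter (fun a => P (φ a) = v), f (φ a) ≤ ∑ b ∈ univ.filter (fun b => P b = v), f b := by
  classical
  rw [← Finset.sum_image (f := f) (g := φ) (s := univ.filter (fun a => P (φ a) = v))
    (fun a _ b _ h => hφ h)]
  refine Finset.sum_le_sum_of_subset ?_
  intro b hb
  obtain ⟨a, ha, rfl⟩ := mem_image.1 hb
  exact mem_filter.2 ⟨mem_univ _, (mem_filter.1 ha).2⟩

/-- **The clause `w`.** -/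
theorem w_of (S : Sys) (φ : S.R → Rw p) (ψ : S.B → Bk p n) (hφ : Function.Injective φ)
    (hψ : Function.Injective ψ) (hB : Big p M L) (hn : 1 ≤ n)
    (hN : ∀ q : Port S, S.ht q ∈ Sf p n M (φ (S.rc q)) (ψ (S.blk q)))
    (hC : 2 * n * p.Ttot ≤ Fintype.card S.C) (hT : 0 < p.Ttot) (Lam : ℕ)
    (hLam : 4900 * (3087 * Fintype.card p.I ^ 2 + 782 * Fintype.card p.K) ≤ Lam)
    (hW : 25 * p.W4 ≤ 2 * p.Ttot ^ 2)
    (hQ : ∀ k, Lam * (p.Q k).coeff.support.card ^ 2 ≤ p.Ttot)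
    (hP : ∀ i, Lam * (p.P i).coeff.support.card ^ 3 ≤ p.Ttot ^ 2) :
    2 * nu2 S ≤ Fintype.card S.C ^ 2 := by
  classical
  -- the pattern is not empty
  obtain ⟨k0, i0, hki⟩ : ∃ k i, 0 < (p.N i k).card := by
    by_contra hcon
    push Not at hcon
    have : p.Ttot = 0 := by
      unfold Vale.Agent.P201.Z.Pat.Ttot
      exact Finset.sum_eq_zero fun k _ => Finset.sum_eq_zero fun i _ => by
        have := hcon k i; omega
    omega
  have hQ0 : 1 ≤ (p.Q k0).coeff.support.card := by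
    rw [Nat.one_le_iff_ne_zero]
    intro h0
    have h1 : p.Q k0 = 0 := by
      apply AddMonoidAlgebra.coeff_injective
      rw [Finset.card_eq_zero, Finsupp.support_eq_empty] at h0
      rw [h0]; rfl
    unfold Vale.Agent.P201.Z.Pat.N at hki
    rw [h1, mul_zero] at hki
    simp at hki
  -- maxima
  obtain ⟨q, hq1, hq2⟩ : ∃ q, (∀ k, (p.Q k).coeff.support.card ≤ q) ∧ Lam * q ^ 2 ≤ p.Ttot := by
    obtain ⟨k, -, hk⟩ := Finset.exists_max_image (univ : Finset p.K)
      (fun k => (p.Q k).coeff.support.card) ⟨k0, mem_univ _⟩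
    exact ⟨_, fun k' => hk k' (mem_univ _), hQ k⟩
  obtain ⟨pp, hp1, hp2⟩ : ∃ pp, (∀ i, (p.P i).coeff.support.card ≤ pp) ∧
      Lam * pp ^ 3 ≤ p.Ttot ^ 2 := by
    obtain ⟨i, -, hi⟩ := Finset.exists_max_image (univ : Finset p.I)
      (fun i => (p.P i).coeff.support.card) ⟨i0, mem_univ _⟩
    exact ⟨_, fun i' => hi i' (mem_univ _), hP i⟩
  have hK : 1 ≤ Fintype.card p.K := Fintype.card_pos_iff.2 ⟨k0⟩
  refine w_arith p.W4 p.Ttot n (Fintype.card p.I) (Fintype.card p.K) q pp (Fintype.card S.C)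
    (nu2 S) Lam hn hK (hQ0.trans (hq1 k0)) hW hq2 hp2 hLam hC ?_
  refine nu2_le_N S (fun r b => Sf p n M (φ r) (ψ b)) hN (fun r => mr (φ r)) (fun b => mb (ψ b))
    (24 * n ^ 2 * p.W4) (4 * q + 13) (2 * n * Fintype.card p.K * q + 7 * (2 * n + 1))
    (2 * n + 1) (7 * pp) (2 * Fintype.card p.I) ?_ ?_ ?_ ?_ ?_ ?_
  · refine le_trans ?_ (main_sum hB)
    refine (injective_sum_le ψ hψ mb true (fun b =>
      ∑ b' ∈ univ.filter (fun b => mb (ψ b) = true),
      ∑ r ∈ univ.filter (fun r => mr (φ r) = true), ∑ r' ∈ univ.filter (fun r => mr (φ r) = true),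
        E4 (Sf p n M (φ r) b) (Sf p n M (φ r') b) (Sf p n M (φ r) (ψ b'))
          (Sf p n M (φ r') (ψ b')))).trans ?_
    refine sum_le_sum fun b _ => ?_
    refine (injective_sum_le ψ hψ mb true (fun b' =>
      ∑ r ∈ univ.filter (fun r => mr (φ r) = true), ∑ r' ∈ univ.filter (fun r => mr (φ r) = true),
        E4 (Sf p n M (φ r) b) (Sf p n M (φ r') b) (Sf p n M (φ r) b')
          (Sf p n M (φ r') b'))).trans ?_
    refine sum_le_sum fun b' _ => ?_
    refine (injective_sum_le φ hφ mr true (fun r =>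
      ∑ r' ∈ univ.filter (fun r => mr (φ r) = true),
        E4 (Sf p n M r b) (Sf p n M (φ r') b) (Sf p n M r b')
          (Sf p n M (φ r') b'))).trans ?_
    refine sum_le_sum fun r _ => ?_
    exact injective_sum_le φ hφ mr true (fun r' =>
        E4 (Sf p n M r b) (Sf p n M r' b) (Sf p n M r b') (Sf p n M r' b'))
  · intro b
    exact (injective_sum_le φ hφ mr false (fun r => (Sf p n M r (ψ b)).card)).trans
      (extra_block hB hq1 (ψ b))
  · intro r hr
    refine le_trans ?_ (extra_row (n := n) hB hq1 (φ r) hr)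
    have := injective_sum_le ψ hψ (fun _ => true) true (fun b => (Sf p n M (φ r) b).card)
    simpa using this
  · have := injective_sum_le ψ hψ mb false (fun _ => 1)
    simp only [Finset.sum_const, smul_eq_mul, mul_one] at this
    rw [card_special] at this
    exact this
  · intro r b hr hb
    exact main_special hB hp1 (φ r) (ψ b) hr hb
  · have := injective_sum_le φ hφ mr true (fun _ => 1)
    simp only [Finset.sum_const, smul_eq_mul, mul_one] at this
    rw [card_main_rows] at this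
    exact this

end

end Vale.Agent.P194.M
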