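import Vale.Agent.P194.M.InstAlg
import Vale.Agent.P194.M.OkSys
import Vale.Agent.P194.M.Dnu
import Vale.Agent.P194.M.W
import Vale.Agent.P194.M.Base
import Vale.Agent.P201.Z.A.Lam

/-!
P194 (direct finiteness of group algebras), main theorem from the machine of P201 (helper872).
Variant M' of note 10194 (helper270); parts: helper22 (Inst, InstAlg, FinAlg2), helper270 (Def, Dnu),
helper154 (Ok, OkSys), helper477 and helper694 (Nu2, E4, W), helper998 (Lam).
-/

namespace Vale.Agent.P194.M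

open Finset Vale.Agent.P201.Z

universe u

/-- heights are bounded independently of `n` -/
theorem sys_ht {p : Pat} {M L : ℤ} (n : ℕ) (hB : Big p M L)
    (q : Vale.Agent.P201.S.Port (sys n hB)) :
    ((sys n hB).ht q).natAbs ≤ (10 * M + L).natAbs := by
  have h1 := Sf_le hB _ _ _ (PS.pm (q0 n hB) (bal n hB) q).2.2
  have h2 : (((sys n hB).ht q).natAbs : ℤ) ≤ ((10 * M + L).natAbs : ℤ) := by
    rw [Int.natCast_natAbs, Int.natCast_natAbs]
    exact h1.trans (le_abs_self _)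
  exact_mod_cast h2

/-- OUTPUT: a matching group of the machine whose group algebra over `F_2` is not directly finite,
torsion-free and with a linear isoperimetric inequality -/
theorem data (hL : Vale.Agent.P201.S.StmtLoc) (hG : Vale.Agent.P201.S.StmtGlob)
    (hT : Vale.Agent.P201.S.StmtTor) :
    ∃ (S : Vale.Agent.P201.S.Sys) (σ : Equiv.Perm S.C) (e1 : ℝ) (_ : 0 < e1) (Y : ℕ),
      (∀ g : Vale.Agent.P201.S.Gp σ, ∀ m : ℕ, 0 < m → g ^ m = 1 → g = 1) ∧
      (∀ l : List (Vale.Agent.P201.S.Let S × Bool),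
        PresentedGroup.mk (Vale.Agent.P201.S.rels σ) (Vale.Agent.P201.S.val l) = 1 →
        ∃ k z, Vale.Agent.P201.S.Expr σ k (Vale.Agent.P201.S.val l) z ∧
          e1 / 2 * k ≤ Vale.Agent.P201.S.wtw Y l) ∧
      ∃ a b : MonoidAlgebra (ZMod 2) (Vale.Agent.P201.S.Gp σ), a * b = 1 ∧ b * a ≠ 1 := by
  obtain ⟨p, hI, hK, hT0, hW, hQ, hP⟩ := Vale.Agent.P201.Z.PA.Lam.stmtLam20
    (4900 * (3087 * (4 ^ 20) ^ 2 + 782 * 4 ^ 20))
  obtain ⟨M, L, hB, hM⟩ := exists_big p
  obtain ⟨N0, hN0⟩ := Vale.Agent.P201.S.machine hL hG hT (Ok.DD p M) (10 * M + L).natAbs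
  have hn : 2 ≤ N0 + 2 := by omega
  have hok : (sys (N0 + 2) hB).Ok (Ok.DD p M) := by
    refine ok_of hB hn ?_
    have h1 := w_of (sys (N0 + 2) hB) (fun r => r) (fun b => b) (fun _ _ h => h) (fun _ _ h => h)
      hB (by omega) (fun q => (PS.pm (q0 (N0 + 2) hB) (bal (N0 + 2) hB) q).2.2)
      (by rw [sys_card]; exact num_ge hB) hT0
      (4900 * (3087 * (4 ^ 20) ^ 2 + 782 * 4 ^ 20)) (by rw [hI, hK]) hW hQ hP
    rwa [sys_card] at h1
  obtain ⟨e1, he1, Y, σ, htor, hshort, hlin⟩ := hN0 (sys (N0 + 2) hB) hok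
    (fun q => sys_ht (N0 + 2) hB q) (by have := le_card (N0 + 2) hB; omega)
  refine ⟨sys (N0 + 2) hB, σ, e1, he1, Y, htor, hlin, ?_⟩
  exact PS.not_df (q0 (N0 + 2) hB) (bal (N0 + 2) hB) (Pq p M) (up M {0, 1, 2}) (fun _ => rfl)
    (fun c => D_not_unit M hM c) σ (t_inj_of_short σ Y hshort)

/-- P194: a torsion-free group `G` such that `K[G]` is not directly finite, for every field `K` of
characteristic 2 -/
theorem main (hL : Vale.Agent.P201.S.StmtLoc) (hG : Vale.Agent.P201.S.StmtGlob)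
    (hT : Vale.Agent.P201.S.StmtTor) :
    ∃ (G : Type) (_ : Group G), (∀ g : G, ∀ m : ℕ, 0 < m → g ^ m = 1 → g = 1) ∧
      ∀ (K : Type u) [Field K] [CharP K 2],
        ∃ a b : MonoidAlgebra K G, a * b = 1 ∧ b * a ≠ 1 := by
  obtain ⟨S, σ, e1, he1, Y, htor, hlin, a, b, hab, hba⟩ := data hL hG hT
  exact ⟨Vale.Agent.P201.S.Gp σ, inferInstance, htor, fun K _ _ => base_change hab hba K⟩

end Vale.Agent.P194.M
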