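import Vale.Agent.P201.Z.Defs

/-! P194, variant M': the rows and the blocks (see note 10194).  `u = t^M`, `D = 1+u+u^2`.
Rows: `D P_i` (copy `true` and copy `false`), `D (1+u^3)` (copy `true`), `D` (copy `false`).
Blocks: `(1+u) Q_k` (`n` times), `1+u+u^4` (`n+1` times), `1+u^2+u^5` (`n` times). -/

namespace Vale.Agent.P194.M

open Finset Vale.Agent.P201.Z

abbrev F2Z : Type := AddMonoidAlgebra (ZMod 2) ℤ

/-- `∑_{a ∈ s} t^{M a}` -/
noncomputable def up (M : ℤ) (s : Finset ℕ) : F2Z :=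
  ∑ a ∈ s, (AddMonoidAlgebra.single M (1 : ZMod 2) : F2Z) ^ a

/-- rows -/
abbrev Rw (p : Pat) : Type := (p.I × Bool) ⊕ Bool

/-- blocks -/
abbrev Bk (p : Pat) (n : ℕ) : Type := (p.K × Fin n) ⊕ (Fin (n + 1) ⊕ Fin n)

/-- copy of a row -/
def cpy {p : Pat} : Rw p → Bool
  | Sum.inl x => x.2
  | Sum.inr a => a

/-- polynomial of a row divided by `D` -/
noncomputable def Pq (p : Pat) (M : ℤ) : Rw p → F2Z
  | Sum.inl x => p.P x.1
  | Sum.inr true => up M {0, 3}
  | Sum.inr false => 1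

/-- polynomial of a row -/
noncomputable def Pr (p : Pat) (M : ℤ) (r : Rw p) : F2Z := Pq p M r * up M {0, 1, 2}

/-- polynomial of a block -/
noncomputable def Qb (p : Pat) (n : ℕ) (M : ℤ) : Bk p n → F2Z
  | Sum.inl y => up M {0, 1} * p.Q y.1
  | Sum.inr (Sum.inl _) => up M {0, 1, 4}
  | Sum.inr (Sum.inr _) => up M {0, 2, 5}

/-- exponents of `u` -/
def Au {p : Pat} {n : ℕ} : Rw p → Bk p n → Finset ℕ
  | Sum.inl _, Sum.inl _ => {0, 3}
  | Sum.inr true, Sum.inl _ => {0, 6}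
  | Sum.inr false, Sum.inl _ => {0, 3}
  | Sum.inl _, Sum.inr (Sum.inl _) => {0, 3, 4, 5, 6}
  | Sum.inl _, Sum.inr (Sum.inr _) => {0, 1, 3, 4, 5, 6, 7}
  | Sum.inr true, Sum.inr (Sum.inl _) => {0, 4, 5, 7, 8, 9}
  | Sum.inr false, Sum.inr (Sum.inl _) => {0, 3, 4, 5, 6}
  | Sum.inr true, Sum.inr (Sum.inr _) => {0, 1, 5, 8, 9, 10}
  | Sum.inr false, Sum.inr (Sum.inr _) => {0, 1, 3, 4, 5, 6, 7}

/-- the factor with small exponents -/
noncomputable def fu (p : Pat) (n : ℕ) : Rw p → Bk p n → F2Z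
  | Sum.inl x, Sum.inl y => p.P x.1 * p.Q y.1
  | Sum.inr _, Sum.inl y => p.Q y.1
  | Sum.inl x, Sum.inr _ => p.P x.1
  | Sum.inr _, Sum.inr _ => 1

/-- ports of row `r` in block `b` -/
noncomputable def Sf (p : Pat) (n : ℕ) (M : ℤ) (r : Rw p) (b : Bk p n) : Finset ℤ :=
  (Pr p M r * Qb p n M b).coeff.support

/-- `M` is large for `p` -/
structure Big (p : Pat) (M L : ℤ) : Prop where
  L0 : 0 ≤ L
  lt : 8 * L < M
  hN : ∀ i k, ∀ h ∈ p.N i k, |h| ≤ L
  hP : ∀ i, ∀ h ∈ (p.P i).coeff.support, |h| ≤ L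
  hQ : ∀ k, ∀ h ∈ (p.Q k).coeff.support, |h| ≤ L

theorem two_eq_zero : (2 : F2Z) = 0 := by
  have h : ((2 : ZMod 2)) = 0 := by decide
  calc (2 : F2Z) = algebraMap (ZMod 2) F2Z 2 := by rw [map_ofNat]
    _ = 0 := by rw [h, map_zero]

theorem mul_fac (p : Pat) (n : ℕ) (M : ℤ) (r : Rw p) (b : Bk p n) :
    Pr p M r * Qb p n M b = up M (Au r b) * fu p n r b := by
  have h2 := two_eq_zero
  have e1 : up M {0, 1, 2} = 1 + (AddMonoidAlgebra.single M (1 : ZMod 2) : F2Z) +
      (AddMonoidAlgebra.single M (1 : ZMod 2) : F2Z) ^ 2 := by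
    simp [up, add_assoc]
  have e2 : up M {0, 3} = 1 + (AddMonoidAlgebra.single M (1 : ZMod 2) : F2Z) ^ 3 := by
    simp [up]
  have e3 : up M {0, 1} = 1 + (AddMonoidAlgebra.single M (1 : ZMod 2) : F2Z) := by
    simp [up]
  have e4 : up M {0, 6} = 1 + (AddMonoidAlgebra.single M (1 : ZMod 2) : F2Z) ^ 6 := by
    simp [up]
  have e5 : up M {0, 1, 4} = 1 + (AddMonoidAlgebra.single M (1 : ZMod 2) : F2Z) +
      (AddMonoidAlgebra.single M (1 : ZMod 2) : F2Z) ^ 4 := by
    simp [up, add_assoc]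
  have e6 : up M {0, 2, 5} = 1 + (AddMonoidAlgebra.single M (1 : ZMod 2) : F2Z) ^ 2 +
      (AddMonoidAlgebra.single M (1 : ZMod 2) : F2Z) ^ 5 := by
    simp [up, add_assoc]
  have e7 : up M {0, 3, 4, 5, 6} = 1 + (AddMonoidAlgebra.single M (1 : ZMod 2) : F2Z) ^ 3 +
      (AddMonoidAlgebra.single M (1 : ZMod 2) : F2Z) ^ 4 +
      (AddMonoidAlgebra.single M (1 : ZMod 2) : F2Z) ^ 5 +
      (AddMonoidAlgebra.single M (1 : ZMod 2) : F2Z) ^ 6 := by
    simp [up, add_assoc]
  have e8 : up M {0, 1, 3, 4, 5, 6, 7} = 1 + (AddMonoidAlgebra.single M (1 : ZMod 2) : F2Z) +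
      (AddMonoidAlgebra.single M (1 : ZMod 2) : F2Z) ^ 3 +
      (AddMonoidAlgebra.single M (1 : ZMod 2) : F2Z) ^ 4 +
      (AddMonoidAlgebra.single M (1 : ZMod 2) : F2Z) ^ 5 +
      (AddMonoidAlgebra.single M (1 : ZMod 2) : F2Z) ^ 6 +
      (AddMonoidAlgebra.single M (1 : ZMod 2) : F2Z) ^ 7 := by
    simp [up, add_assoc]
  have e9 : up M {0, 4, 5, 7, 8, 9} = 1 + (AddMonoidAlgebra.single M (1 : ZMod 2) : F2Z) ^ 4 +
      (AddMonoidAlgebra.single M (1 : ZMod 2) : F2Z) ^ 5 +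
      (AddMonoidAlgebra.single M (1 : ZMod 2) : F2Z) ^ 7 +
      (AddMonoidAlgebra.single M (1 : ZMod 2) : F2Z) ^ 8 +
      (AddMonoidAlgebra.single M (1 : ZMod 2) : F2Z) ^ 9 := by
    simp [up, add_assoc]
  have e10 : up M {0, 1, 5, 8, 9, 10} = 1 + (AddMonoidAlgebra.single M (1 : ZMod 2) : F2Z) +
      (AddMonoidAlgebra.single M (1 : ZMod 2) : F2Z) ^ 5 +
      (AddMonoidAlgebra.single M (1 : ZMod 2) : F2Z) ^ 8 +
      (AddMonoidAlgebra.single M (1 : ZMod 2) : F2Z) ^ 9 +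
      (AddMonoidAlgebra.single M (1 : ZMod 2) : F2Z) ^ 10 := by
    simp [up, add_assoc]
  generalize (AddMonoidAlgebra.single M (1 : ZMod 2) : F2Z) = u at *
  rcases r with x | (_ | _) <;> rcases b with y | (y | y) <;>
    simp only [Pr, Pq, Qb, Au, fu, e1, e2, e3, e4, e5, e6, e7, e8, e9, e10]
  · linear_combination (p.P x.1 * p.Q y.1 * (u + u ^ 2)) * h2
  · linear_combination (p.P x.1 * (u + u ^ 2)) * h2
  · linear_combination (p.P x.1 * u ^ 2) * h2
  · linear_combination (p.Q y.1 * (u + u ^ 2)) * h2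
  · linear_combination (u + u ^ 2) * h2
  · linear_combination (u ^ 2) * h2
  · linear_combination (p.Q y.1 * (u + u ^ 2 + u ^ 3 + u ^ 4 + u ^ 5)) * h2
  · linear_combination (u + u ^ 2 + u ^ 3 + u ^ 4 + u ^ 5 + u ^ 6) * h2
  · linear_combination (u ^ 2 + u ^ 3 + u ^ 4 + u ^ 5 + u ^ 6 + u ^ 7) * h2

/-! ## supports -/

/-- dilation: `{M a + h}` -/
noncomputable def dil (M : ℤ) (s : Finset ℕ) (F : Finset ℤ) : Finset ℤ :=
  (s ×ˢ F).image (fun x => M * x.1 + x.2)

theorem dil_inj {M L : ℤ} (hM : 2 * L < M) {a b : ℕ} {h k : ℤ} (hh : |h| ≤ L) (hk : |k| ≤ L)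
    (he : M * a + h = M * b + k) : a = b ∧ h = k := by
  have h1 := abs_le.1 hh
  have h2 := abs_le.1 hk
  have hab : (a : ℤ) = b := by
    rcases lt_trichotomy (a : ℤ) b with hlt | heq | hlt
    · exfalso
      have : M * ((b : ℤ) - a) ≥ M * 1 := by
        apply mul_le_mul_of_nonneg_left
        · omega
        · linarith
      nlinarith
    · exact heq
    · exfalso
      have : M * ((a : ℤ) - b) ≥ M * 1 := by
        apply mul_le_mul_of_nonneg_left
        · omega
        · linarith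
      nlinarith
  refine ⟨by exact_mod_cast hab, ?_⟩
  rw [hab] at he
  linarith

theorem card_dil {M L : ℤ} (hM : 2 * L < M) (s : Finset ℕ) (F : Finset ℤ)
    (hF : ∀ h ∈ F, |h| ≤ L) : (dil M s F).card = s.card * F.card := by
  rw [dil, Finset.card_image_of_injOn, Finset.card_product]
  rintro ⟨a, h⟩ hx ⟨b, k⟩ hy he
  simp only [Finset.coe_product, Set.mem_prod, Finset.mem_coe] at hx hy
  have h12 : a = b ∧ h = k := dil_inj hM (hF h hx.2) (hF k hy.2) he
  rw [h12.1, h12.2]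

theorem supp_up {M L : ℤ} (hM : 2 * L < M) (s : Finset ℕ) (f : F2Z)
    (hf : ∀ h ∈ f.coeff.support, |h| ≤ L) :
    (up M s * f).coeff.support = dil M s f.coeff.support := by
  classical
  have hc : ∀ z : ℤ, (up M s * f).coeff z = ∑ a ∈ s, f.coeff (z - M * a) := by
    intro z
    rw [up, Finset.sum_mul, AddMonoidAlgebra.coeff_sum, Finsupp.finsetSum_apply]
    refine Finset.sum_congr rfl fun a _ => ?_
    rw [AddMonoidAlgebra.single_pow, one_pow]
    have : (a : ℕ) • M = M * a := by rw [nsmul_eq_mul, mul_comm]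
    rw [this, AddMonoidAlgebra.coeff_single_mul_apply, one_mul]
    congr 1
    ring
  ext z
  rw [Finsupp.mem_support_iff, hc, dil, Finset.mem_image]
  constructor
  · intro hz
    obtain ⟨a, ha, hne⟩ := Finset.exists_ne_zero_of_sum_ne_zero hz
    refine ⟨(a, z - M * a), ?_, by simp⟩
    rw [Finset.mem_product]
    exact ⟨ha, Finsupp.mem_support_iff.2 hne⟩
  · rintro ⟨⟨a, h⟩, hx, rfl⟩
    rw [Finset.mem_product] at hx
    rw [Finset.sum_eq_single a]
    · simp only [add_sub_cancel_left]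
      exact Finsupp.mem_support_iff.1 hx.2
    · intro b hb hne
      by_contra hcon
      have h3 := hf _ (Finsupp.mem_support_iff.2 hcon)
      have := dil_inj hM (a := b) (b := a) h3 (hf h hx.2) (by simp)
      exact hne this.1
    · intro hn; exact absurd hx.1 hn

theorem fu_le {p : Pat} {n : ℕ} {M L : ℤ} (hB : Big p M L) (r : Rw p) (b : Bk p n) :
    ∀ h ∈ (fu p n r b).coeff.support, |h| ≤ L := by
  rcases r with x | x <;> rcases b with y | y <;> simp only [fu]
  · exact hB.hN x.1 y.1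
  · exact hB.hP x.1
  · exact hB.hQ y.1
  · intro h hh
    have : h = 0 := by
      by_contra hne
      rw [Finsupp.mem_support_iff, AddMonoidAlgebra.one_def, AddMonoidAlgebra.coeff_single] at hh
      exact hh (Finsupp.single_eq_of_ne hne)
    rw [this, abs_zero]
    exact hB.L0

/-- the ports of a row in a block -/
theorem Sf_eq {p : Pat} {n : ℕ} {M L : ℤ} (hB : Big p M L) (r : Rw p) (b : Bk p n) :
    Sf p n M r b = dil M (Au r b) (fu p n r b).coeff.support := by
  have := hB.lt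
  have := hB.L0
  rw [Sf, mul_fac, supp_up (L := L) (by linarith) _ _ (fu_le hB r b)]

theorem card_Sf {p : Pat} {n : ℕ} {M L : ℤ} (hB : Big p M L) (r : Rw p) (b : Bk p n) :
    (Sf p n M r b).card = (Au r b).card * (fu p n r b).coeff.support.card := by
  have := hB.lt
  have := hB.L0
  rw [Sf_eq hB, card_dil (L := L) (by linarith) _ _ (fu_le hB r b)]

theorem one_supp : (1 : F2Z).coeff.support = {0} := by
  classical
  rw [AddMonoidAlgebra.one_def, AddMonoidAlgebra.coeff_single]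
  exact Finsupp.support_single _ (by decide)

/-- number of ports of a copy -/
noncomputable def num (p : Pat) (n : ℕ) (M : ℤ) (a : Bool) : ℕ :=
  ∑ r ∈ univ.filter (fun r : Rw p => cpy r = a), ∑ b : Bk p n, (Sf p n M r b).card

theorem num_eq (p : Pat) (n : ℕ) (M : ℤ) (a : Bool) :
    num p n M a = ∑ i : p.I, ∑ b : Bk p n, (Sf p n M (Sum.inl (i, a)) b).card +
      ∑ b : Bk p n, (Sf p n M (Sum.inr a) b).card := by
  classical
  unfold num
  rw [Finset.sum_filter, Fintype.sum_sum_type, Fintype.sum_prod_type]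
  congr 1
  · refine Finset.sum_congr rfl fun i _ => ?_
    cases a <;> simp [cpy]
  · cases a <;> simp [cpy]

theorem num_bal {p : Pat} {n : ℕ} {M L : ℤ} (hB : Big p M L) :
    num p n M true = num p n M false + 1 := by
  have c1 : ∀ a : Bool, ∀ i : p.I, ∀ b : Bk p n, (Sf p n M (Sum.inl (i, a)) b).card =
      (Sf p n M (Sum.inl (i, false)) b).card := by
    intro a i b
    rw [card_Sf hB, card_Sf hB]
    rcases b with y | (y | y) <;> rfl
  rw [num_eq, num_eq]
  simp_rw [c1 true]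
  have c2 : ∑ b : Bk p n, (Sf p n M (Sum.inr true) b).card =
      ∑ b : Bk p n, (Sf p n M (Sum.inr false) b).card + 1 := by
    rw [Fintype.sum_sum_type, Fintype.sum_sum_type, Fintype.sum_sum_type, Fintype.sum_sum_type]
    simp only [card_Sf hB, Au, fu, one_supp, Finset.card_singleton, mul_one]
    have d1 : ({0, 6} : Finset ℕ).card = 2 := by decide
    have d2 : ({0, 3} : Finset ℕ).card = 2 := by decide
    have d3 : ({0, 4, 5, 7, 8, 9} : Finset ℕ).card = 6 := by decide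
    have d4 : ({0, 3, 4, 5, 6} : Finset ℕ).card = 5 := by decide
    have d5 : ({0, 1, 5, 8, 9, 10} : Finset ℕ).card = 6 := by decide
    have d6 : ({0, 1, 3, 4, 5, 6, 7} : Finset ℕ).card = 7 := by decide
    rw [d1, d2, d3, d4, d5, d6]
    simp only [Finset.sum_const, Finset.card_univ, Fintype.card_fin, smul_eq_mul]
    ring
  rw [c2]
  ring

/-- lower bound for the number of cells -/
theorem num_ge {p : Pat} {n : ℕ} {M L : ℤ} (hB : Big p M L) :
    2 * n * p.Ttot ≤ num p n M false := by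
  rw [num_eq]
  refine le_trans ?_ (Nat.le_add_right _ _)
  have h1 : ∀ i : p.I, 2 * n * ∑ k, (p.N i k).card ≤
      ∑ b : Bk p n, (Sf p n M (Sum.inl (i, false)) b).card := by
    intro i
    rw [Fintype.sum_sum_type]
    refine le_trans ?_ (Nat.le_add_right _ _)
    rw [Fintype.sum_prod_type]
    simp only [card_Sf hB, Au, fu]
    have d2 : ({0, 3} : Finset ℕ).card = 2 := by decide
    rw [d2]
    simp only [Finset.sum_const, Finset.card_univ, Fintype.card_fin, smul_eq_mul]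
    rw [Finset.mul_sum]
    apply le_of_eq
    refine Finset.sum_congr rfl fun k _ => ?_
    rw [Pat.N]
    ring
  calc 2 * n * p.Ttot = ∑ i : p.I, 2 * n * ∑ k, (p.N i k).card := by
        rw [Pat.Ttot, Finset.sum_comm, Finset.mul_sum]
    _ ≤ _ := Finset.sum_le_sum fun i _ => h1 i

/-- for every pattern there are `L` and `M` -/
theorem exists_big (p : Pat) : ∃ M L : ℤ, Big p M L ∧ 0 < M := by
  classical
  have hfin : ∃ L : ℤ, 0 ≤ L ∧ (∀ i k, ∀ h ∈ p.N i k, |h| ≤ L) ∧
      (∀ i, ∀ h ∈ (p.P i).coeff.support, |h| ≤ L) ∧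
      (∀ k, ∀ h ∈ (p.Q k).coeff.support, |h| ≤ L) := by
    set A : Finset ℤ := (univ.biUnion fun i : p.I => univ.biUnion fun k : p.K => p.N i k) ∪
      (univ.biUnion fun i : p.I => (p.P i).coeff.support) ∪
      (univ.biUnion fun k : p.K => (p.Q k).coeff.support) with hA
    refine ⟨∑ h ∈ A, |h|, Finset.sum_nonneg fun _ _ => abs_nonneg _, ?_, ?_, ?_⟩
    · intro i k h hh
      apply Finset.single_le_sum (f := fun h : ℤ => |h|) (fun _ _ => abs_nonneg _)
      rw [hA]
      simp only [Finset.mem_union, Finset.mem_biUnion, Finset.mem_univ, true_and]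
      exact Or.inl (Or.inl ⟨i, k, hh⟩)
    · intro i h hh
      apply Finset.single_le_sum (f := fun h : ℤ => |h|) (fun _ _ => abs_nonneg _)
      rw [hA]
      simp only [Finset.mem_union, Finset.mem_biUnion, Finset.mem_univ, true_and]
      exact Or.inl (Or.inr ⟨i, hh⟩)
    · intro i h hh
      apply Finset.single_le_sum (f := fun h : ℤ => |h|) (fun _ _ => abs_nonneg _)
      rw [hA]
      simp only [Finset.mem_union, Finset.mem_biUnion, Finset.mem_univ, true_and]
      exact Or.inr ⟨i, hh⟩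
  obtain ⟨L, h0, h1, h2, h3⟩ := hfin
  exact ⟨8 * L + 1, L, ⟨h0, by linarith, h1, h2, h3⟩, by linarith⟩

/-- the port that stays unmatched -/
theorem zero_mem {p : Pat} {n : ℕ} {M L : ℤ} (hB : Big p M L) :
    (0 : ℤ) ∈ Sf p n M (Sum.inr true) (Sum.inr (Sum.inl 0)) := by
  rw [Sf_eq hB, dil, Finset.mem_image]
  refine ⟨(0, 0), ?_, by simp⟩
  rw [Finset.mem_product]
  refine ⟨by simp [Au], ?_⟩
  simp only [fu, one_supp, Finset.mem_singleton]

end Vale.Agent.P194.M
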