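import Vale.Agent.P194.M.Def
import Vale.Agent.P194.M.E4

/-!
P194: quadruples of the main rows and blocks (helper694).
-/

namespace Vale.Agent.P194.M

open Finset Vale.Agent.P201.Z

namespace E4Main

theorem dil_eq (M : ℤ) (s : Finset ℕ) (F : Finset ℤ) :
    dil M s F = dz M (s.image (fun a : ℕ => (a : ℤ))) F := by
  ext x
  rw [mem_dz, dil, mem_image]
  constructor
  · rintro ⟨⟨a, h⟩, hm, rfl⟩
    rw [mem_product] at hm
    exact ⟨a, mem_image_of_mem _ hm.1, h, hm.2, rfl⟩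
  · rintro ⟨a, ha, h, hh, rfl⟩
    obtain ⟨b, hb, rfl⟩ := mem_image.1 ha
    exact ⟨(b, h), mem_product.2 ⟨hb, hh⟩, rfl⟩

/-- dilation lemma for `dil` -/
theorem dil_le' {M L : ℤ} {s1 s2 s3 s4 : Finset ℕ} {F1 F2 F3 F4 : Finset ℤ} (hM : 4 * L < M)
    (h1 : ∀ h ∈ F1, |h| ≤ L) (h2 : ∀ h ∈ F2, |h| ≤ L) (h3 : ∀ h ∈ F3, |h| ≤ L)
    (h4 : ∀ h ∈ F4, |h| ≤ L) :
    E4 (dil M s1 F1) (dil M s2 F2) (dil M s3 F3) (dil M s4 F4) ≤
      E4 (s1.image (fun a : ℕ => (a : ℤ))) (s2.image (fun a : ℕ => (a : ℤ)))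
        (s3.image (fun a : ℕ => (a : ℤ))) (s4.image (fun a : ℕ => (a : ℤ))) * E4 F1 F2 F3 F4 := by
  rw [dil_eq, dil_eq, dil_eq, dil_eq]
  exact E4_dz hM h1 h2 h3 h4

theorem img03 : (({0, 3} : Finset ℕ).image (fun a : ℕ => (a : ℤ))) = {0, 3} := by decide

theorem Sf_main {p : Pat} {n : ℕ} {M L : ℤ} (hB : Big p M L) (r r' : p.I × Bool)
    (b b' : p.K × Fin n) :
    E4 (Sf p n M (Sum.inl r) (Sum.inl b)) (Sf p n M (Sum.inl r') (Sum.inl b))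
      (Sf p n M (Sum.inl r) (Sum.inl b')) (Sf p n M (Sum.inl r') (Sum.inl b')) ≤
      6 * E4 (p.N r.1 b.1) (p.N r'.1 b.1) (p.N r.1 b'.1) (p.N r'.1 b'.1) := by
  have h1 := hB.lt
  have h2 := hB.L0
  rw [Sf_eq hB, Sf_eq hB, Sf_eq hB, Sf_eq hB]
  have h3 := dil_le' (M := M) (L := L) (s1 := {0, 3}) (s2 := {0, 3}) (s3 := {0, 3}) (s4 := {0, 3})
    (by linarith) (hB.hN r.1 b.1) (hB.hN r'.1 b.1) (hB.hN r.1 b'.1) (hB.hN r'.1 b'.1)
  rw [img03, E4_two] at h3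
  exact h3

theorem W4_eq (p : Pat) : p.W4 = ∑ k, ∑ k', ∑ i, ∑ i',
    E4 (p.N i k) (p.N i' k) (p.N i k') (p.N i' k') := rfl

/-- quadruples of the main rows and blocks -/
theorem sum_main {p : Pat} {n : ℕ} {M L : ℤ} (hB : Big p M L) :
    ∑ b : p.K × Fin n, ∑ b' : p.K × Fin n, ∑ r : p.I × Bool, ∑ r' : p.I × Bool,
      E4 (Sf p n M (Sum.inl r) (Sum.inl b)) (Sf p n M (Sum.inl r') (Sum.inl b))
        (Sf p n M (Sum.inl r) (Sum.inl b')) (Sf p n M (Sum.inl r') (Sum.inl b')) ≤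
      24 * n ^ 2 * p.W4 := by
  have h1 : ∑ b : p.K × Fin n, ∑ b' : p.K × Fin n, ∑ r : p.I × Bool, ∑ r' : p.I × Bool,
      E4 (Sf p n M (Sum.inl r) (Sum.inl b)) (Sf p n M (Sum.inl r') (Sum.inl b))
        (Sf p n M (Sum.inl r) (Sum.inl b')) (Sf p n M (Sum.inl r') (Sum.inl b')) ≤
      ∑ b : p.K × Fin n, ∑ b' : p.K × Fin n, ∑ r : p.I × Bool, ∑ r' : p.I × Bool,
        6 * E4 (p.N r.1 b.1) (p.N r'.1 b.1) (p.N r.1 b'.1) (p.N r'.1 b'.1) :=
    sum_le_sum fun b _ => sum_le_sum fun b' _ => sum_le_sum fun r _ => sum_le_sum fun r' _ =>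
      Sf_main hB r r' b b'
  refine h1.trans (le_of_eq ?_)
  rw [W4_eq]
  simp only [Fintype.sum_prod_type, sum_const, card_univ, Fintype.card_fin, smul_eq_mul,
    Fintype.card_bool, ← mul_sum]
  ring

/-- the same in the form of the hypothesis `hA` of `nu2_le_N` -/
theorem hA_main {p : Pat} {n : ℕ} {M L : ℤ} (hB : Big p M L) :
    ∑ b ∈ univ.filter (fun b : Bk p n => b.isLeft = true),
      ∑ b' ∈ univ.filter (fun b : Bk p n => b.isLeft = true),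
      ∑ r ∈ univ.filter (fun r : Rw p => r.isLeft = true),
      ∑ r' ∈ univ.filter (fun r : Rw p => r.isLeft = true),
        E4 (Sf p n M r b) (Sf p n M r' b) (Sf p n M r b') (Sf p n M r' b') ≤
      24 * n ^ 2 * p.W4 := by
  refine le_trans (le_of_eq ?_) (sum_main (n := n) hB)
  simp only [sum_filter, Fintype.sum_sum_type (α₁ := p.K × Fin n), Sum.isLeft_inl, Sum.isLeft_inr,
    if_true, Bool.false_eq_true, if_false, sum_const_zero, add_zero,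
    Fintype.sum_sum_type (α₁ := p.I × Bool)]

end E4Main

end Vale.Agent.P194.M
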