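import Mathlib

/-!
P194, final algebra (helper22).  `gamma * beta = 0` (all ports of the first row group matched),
`alpha * beta = g0` (all ports of the second row group but one matched), `gamma ≠ 0`.
Hence `a = g0⁻¹ alpha`, `b = beta` satisfy `a * b = 1`, `b * a ≠ 1`.
-/

namespace Vale.Agent.P194.M

open Finset

/-- abstract end of the argument -/
theorem not_df_of {R : Type} [Ring R] {a b c : R} (hcb : c * b = 0) (hc : c ≠ 0) :
    b * a ≠ 1 := by
  intro h
  apply hc
  calc c = c * (b * a) := by rw [h, mul_one]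
    _ = c * b * a := by rw [mul_assoc]
    _ = 0 := by rw [hcb, zero_mul]

section

variable {G : Type} [Group G]

/-- group elements in the group ring -/
noncomputable def em (g : G) : MonoidAlgebra (ZMod 2) G := MonoidAlgebra.of (ZMod 2) G g

/-- substitution of `t` in Laurent polynomials -/
noncomputable def ph (t : G) : AddMonoidAlgebra (ZMod 2) ℤ →ₐ[ZMod 2] MonoidAlgebra (ZMod 2) G :=
  AddMonoidAlgebra.lift (ZMod 2) (MonoidAlgebra (ZMod 2) G) ℤ
    ((MonoidAlgebra.of (ZMod 2) G).comp (zpowersHom G t))

theorem ph_single (t : G) (h : ℤ) (r : ZMod 2) :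
    ph t (AddMonoidAlgebra.single h r) = r • em (t ^ h) := by
  rw [ph, AddMonoidAlgebra.lift_single]
  simp [em]

theorem zmod2_of_ne {r : ZMod 2} (h : r ≠ 0) : r = 1 := by
  revert h; revert r; decide

theorem ph_eq (t : G) (f : AddMonoidAlgebra (ZMod 2) ℤ) :
    ph t f = ∑ h ∈ f.coeff.support, em (t ^ h) := by
  have h1 : f = ∑ h ∈ f.coeff.support, AddMonoidAlgebra.single h (f.coeff h) := by
    apply AddMonoidAlgebra.coeff_injective
    rw [AddMonoidAlgebra.coeff_sum]
    simp only [AddMonoidAlgebra.coeff_single]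
    exact (Finsupp.sum_single f.coeff).symm
  conv_lhs => rw [h1]
  rw [map_sum]
  refine Finset.sum_congr rfl fun h hh => ?_
  rw [ph_single, zmod2_of_ne (Finsupp.mem_support_iff.1 hh), one_smul]

theorem em_mul (g h : G) : em g * em h = em (g * h) := by
  simp [em]

theorem em_one : em (1 : G) = 1 := by
  rw [em, map_one]

/-- sum of the products of row elements `x r * P r` over a set of rows -/
noncomputable def rowSum {R : Type} (t : G) (x : R → G) (P : R → AddMonoidAlgebra (ZMod 2) ℤ)
    (S : Finset R) : MonoidAlgebra (ZMod 2) G := ∑ r ∈ S, em (x r) * ph t (P r)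

/-- sum over the blocks -/
noncomputable def colSum {B : Type} [Fintype B] (t : G) (y : B → G)
    (Q : B → AddMonoidAlgebra (ZMod 2) ℤ) : MonoidAlgebra (ZMod 2) G :=
  ∑ j, ph t (Q j) * em (y j)

/-- the product as a sum over ports -/
theorem rowSum_mul_colSum {R B : Type} [DecidableEq R] [Fintype B] [DecidableEq B] (t : G)
    (x : R → G) (y : B → G) (P : R → AddMonoidAlgebra (ZMod 2) ℤ)
    (Q : B → AddMonoidAlgebra (ZMod 2) ℤ) (S : Finset R) :
    rowSum t x P S * colSum t y Q =
      ∑ r ∈ S, ∑ j, ∑ h ∈ (P r * Q j).coeff.support, em (x r * t ^ h * y j) := by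
  unfold rowSum colSum
  rw [Finset.sum_mul]
  refine Finset.sum_congr rfl fun r _ => ?_
  rw [Finset.mul_sum]
  refine Finset.sum_congr rfl fun j _ => ?_
  rw [mul_assoc, ← mul_assoc (ph t (P r)), ← map_mul, ph_eq, Finset.sum_mul, Finset.mul_sum]
  refine Finset.sum_congr rfl fun h _ => ?_
  rw [em_mul, em_mul, ← mul_assoc]

/-- the ports as a finset of triples -/
noncomputable def ports {R B : Type} [DecidableEq R] [Fintype B] [DecidableEq B]
    (P : R → AddMonoidAlgebra (ZMod 2) ℤ) (Q : B → AddMonoidAlgebra (ZMod 2) ℤ) (S : Finset R) :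
    Finset (R × B × ℤ) :=
  S.biUnion fun r => univ.biUnion fun j => ((P r * Q j).coeff.support).image fun h => (r, j, h)

theorem mem_ports {R B : Type} [DecidableEq R] [Fintype B] [DecidableEq B]
    {P : R → AddMonoidAlgebra (ZMod 2) ℤ} {Q : B → AddMonoidAlgebra (ZMod 2) ℤ} {S : Finset R}
    {z : R × B × ℤ} :
    z ∈ ports P Q S ↔ z.1 ∈ S ∧ z.2.2 ∈ (P z.1 * Q z.2.1).coeff.support := by
  unfold ports
  simp only [Finset.mem_biUnion, Finset.mem_image, Finset.mem_univ, true_and]
  constructor
  · rintro ⟨r, hr, j, h, hh, rfl⟩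
    exact ⟨hr, hh⟩
  · rintro ⟨h1, h2⟩
    exact ⟨z.1, h1, z.2.1, z.2.2, h2, rfl⟩

theorem prod_eq_ports {R B : Type} [DecidableEq R] [Fintype B] [DecidableEq B] (t : G)
    (x : R → G) (y : B → G) (P : R → AddMonoidAlgebra (ZMod 2) ℤ)
    (Q : B → AddMonoidAlgebra (ZMod 2) ℤ) (S : Finset R) :
    rowSum t x P S * colSum t y Q =
      ∑ z ∈ ports P Q S, em (x z.1 * t ^ z.2.2 * y z.2.1) := by
  rw [rowSum_mul_colSum]
  unfold ports
  rw [Finset.sum_biUnion]
  · refine Finset.sum_congr rfl fun r _ => ?_
    rw [Finset.sum_biUnion]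
    · refine Finset.sum_congr rfl fun j _ => ?_
      rw [Finset.sum_image]
      intro a _ b _ h
      simpa using h
    · intro j _ j' _ hne
      rw [Function.onFun, Finset.disjoint_left]
      intro z hz hz'
      rw [Finset.mem_image] at hz hz'
      obtain ⟨_, _, rfl⟩ := hz
      obtain ⟨_, _, h2⟩ := hz'
      apply hne
      simp only [Prod.mk.injEq] at h2
      exact h2.2.1.symm
  · intro r _ r' _ hne
    rw [Function.onFun, Finset.disjoint_left]
    intro z hz hz'
    rw [Finset.mem_biUnion] at hz hz'
    obtain ⟨_, _, hz⟩ := hz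
    obtain ⟨_, _, hz'⟩ := hz'
    rw [Finset.mem_image] at hz hz'
    obtain ⟨_, _, rfl⟩ := hz
    obtain ⟨_, _, h2⟩ := hz'
    apply hne
    simp only [Prod.mk.injEq] at h2
    exact h2.1.symm

theorem add_self (a : MonoidAlgebra (ZMod 2) G) : a + a = 0 := by
  rw [← two_smul (ZMod 2), show (2 : ZMod 2) = 0 from rfl, zero_smul]

/-- Main algebraic statement.  `C` = cells, ports `C × Bool`, colour `cl` preserved by `σ`;
`te q = x (rc q) * t ^ ht q * y (blk q)`, equal on matched ports.  All triples `(r,j,h)`,
`h ∈ supp (P r * Q j)`, are ports, except `(r0,j0,h0)`, which is not a port and has colour `false`. -/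
theorem fin_alg {R B C : Type} [Fintype R] [DecidableEq R] [Fintype B] [DecidableEq B] [Fintype C]
    (t : G) (x : R → G) (y : B → G)
    (P : R → AddMonoidAlgebra (ZMod 2) ℤ) (Q : B → AddMonoidAlgebra (ZMod 2) ℤ)
    (col : R → Bool) (rc : C × Bool → R) (blk : C × Bool → B) (ht : C × Bool → ℤ) (cl : C → Bool)
    (σ : Equiv.Perm C) (hσ : ∀ c, cl (σ c) = cl c)
    (hcl : ∀ q : C × Bool, col (rc q) = cl q.1)
    (hinj : ∀ q q' : C × Bool, rc q = rc q' → blk q = blk q' → ht q = ht q' → q = q')
    (r0 : R) (j0 : B) (h0 : ℤ) (hr0 : col r0 = false)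
    (hmem0 : h0 ∈ (P r0 * Q j0).coeff.support)
    (hmem : ∀ q : C × Bool, ht q ∈ (P (rc q) * Q (blk q)).coeff.support)
    (himg : ∀ r j h, h ∈ (P r * Q j).coeff.support →
      (r = r0 ∧ j = j0 ∧ h = h0) ∨ ∃ q : C × Bool, rc q = r ∧ blk q = j ∧ ht q = h)
    (hnot : ∀ q : C × Bool, ¬ (rc q = r0 ∧ blk q = j0 ∧ ht q = h0))
    (hrel : ∀ c, x (rc (c, true)) * t ^ ht (c, true) * y (blk (c, true)) =
      x (rc (σ c, false)) * t ^ ht (σ c, false) * y (blk (σ c, false)))
    (hx : ∀ r r' (h h' : ℤ), x r * t ^ h = x r' * t ^ h' → r = r' ∧ h = h')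
    (hne : ∃ r, col r = true ∧ P r ≠ 0) :
    ∃ a b : MonoidAlgebra (ZMod 2) G, a * b = 1 ∧ b * a ≠ 1 := by
  classical
  set te : C × Bool → G := fun q => x (rc q) * t ^ ht q * y (blk q) with hte
  set tr : C × Bool → R × B × ℤ := fun q => (rc q, blk q, ht q) with htr
  have htrinj : Function.Injective tr := by
    intro q q' h
    simp only [htr, Prod.mk.injEq] at h
    exact hinj q q' h.1 h.2.1 h.2.2
  -- sum over the matched ports of one colour vanishes
  have hzero : ∀ b : Bool, ∑ q ∈ univ.filter (fun q : C × Bool => cl q.1 = b), em (te q) = 0 := by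
    intro b
    have h1 : (univ.filter (fun q : C × Bool => cl q.1 = b)) =
        (univ.filter (fun c : C => cl c = b)) ×ˢ (univ : Finset Bool) := by
      ext q
      simp
    rw [h1, Finset.sum_product]
    simp only [Fintype.sum_bool, Finset.sum_add_distrib]
    have h2 : ∑ c ∈ univ.filter (fun c : C => cl c = b), em (te (c, true)) =
        ∑ c ∈ univ.filter (fun c : C => cl c = b), em (te (c, false)) := by
      refine Finset.sum_bij (fun c _ => σ c) ?_ ?_ ?_ ?_
      · intro c hc
        rw [Finset.mem_filter] at hc ⊢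
        exact ⟨Finset.mem_univ _, by rw [hσ]; exact hc.2⟩
      · intro c _ c' _ h
        exact σ.injective h
      · intro c hc
        refine ⟨σ.symm c, ?_, by simp⟩
        rw [Finset.mem_filter] at hc ⊢
        refine ⟨Finset.mem_univ _, ?_⟩
        rw [← hσ, Equiv.apply_symm_apply]
        exact hc.2
      · intro c _
        congr 1
        exact hrel c
    rw [h2]
    exact add_self _
  -- the two row groups
  have hgam : rowSum t x P (univ.filter (fun r => col r = true)) * colSum t y Q = 0 := by
    rw [prod_eq_ports]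
    have h1 : ports P Q (univ.filter (fun r => col r = true)) =
        (univ.filter (fun q : C × Bool => cl q.1 = true)).image tr := by
      ext z
      rw [mem_ports, Finset.mem_image]
      simp only [Finset.mem_filter, Finset.mem_univ, true_and]
      constructor
      · rintro ⟨hz1, hz2⟩
        rcases himg z.1 z.2.1 z.2.2 hz2 with ⟨h3, _, _⟩ | ⟨q, h3, h4, h5⟩
        · rw [h3, hr0] at hz1; cases hz1
        · refine ⟨q, ?_, ?_⟩
          · rw [← hcl, h3]; exact hz1
          · simp only [htr, h3, h4, h5]
      · rintro ⟨q, hq, rfl⟩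
        refine ⟨?_, hmem q⟩
        simp only [htr]
        rw [hcl]; exact hq
    rw [h1, Finset.sum_image (fun a _ b _ h => htrinj h)]
    exact hzero true
  have halp : rowSum t x P (univ.filter (fun r => col r = false)) * colSum t y Q =
      em (x r0 * t ^ h0 * y j0) := by
    rw [prod_eq_ports]
    have h1 : ports P Q (univ.filter (fun r => col r = false)) =
        insert (r0, j0, h0) ((univ.filter (fun q : C × Bool => cl q.1 = false)).image tr) := by
      ext z
      rw [mem_ports, Finset.mem_insert, Finset.mem_image]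
      simp only [Finset.mem_filter, Finset.mem_univ, true_and]
      constructor
      · rintro ⟨hz1, hz2⟩
        rcases himg z.1 z.2.1 z.2.2 hz2 with ⟨h3, h4, h5⟩ | ⟨q, h3, h4, h5⟩
        · left
          rw [← h3, ← h4, ← h5]
        · right
          refine ⟨q, ?_, ?_⟩
          · rw [← hcl, h3]; exact hz1
          · simp only [htr, h3, h4, h5]
      · rintro (rfl | ⟨q, hq, rfl⟩)
        · exact ⟨hr0, hmem0⟩
        · refine ⟨?_, hmem q⟩
          simp only [htr]
          rw [hcl]; exact hq
    have h2 : (r0, j0, h0) ∉ (univ.filter (fun q : C × Bool => cl q.1 = false)).image tr := by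
      intro h
      rw [Finset.mem_image] at h
      obtain ⟨q, _, hq⟩ := h
      simp only [htr, Prod.mk.injEq] at hq
      exact hnot q hq
    rw [h1, Finset.sum_insert h2, Finset.sum_image (fun a _ b _ h => htrinj h)]
    have h3 := hzero false
    simp only [hte] at h3
    simp only [htr]
    rw [h3, add_zero]
  have hgne : rowSum t x P (univ.filter (fun r => col r = true)) ≠ 0 := by
    obtain ⟨i0, hi0, hP0⟩ := hne
    have h0 : ∃ k, k ∈ (P i0).coeff.support := by
      apply Finsupp.support_nonempty_iff.2
      intro h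
      exact hP0 (AddMonoidAlgebra.coeff_eq_zero.1 h)
    obtain ⟨k, hk⟩ := h0
    intro hz
    have h1 : (rowSum t x P (univ.filter (fun r => col r = true))).coeff (x i0 * t ^ k) = 1 := by
      unfold rowSum
      rw [MonoidAlgebra.coeff_sum, Finsupp.finsetSum_apply, Finset.sum_eq_single i0]
      · rw [ph_eq, Finset.mul_sum, MonoidAlgebra.coeff_sum, Finsupp.finsetSum_apply,
            Finset.sum_eq_single k]
        · rw [em_mul]
          simp [em]
        · intro h _ hne
          rw [em_mul]
          simp only [em, MonoidAlgebra.of_apply, MonoidAlgebra.coeff_single]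
          apply Finsupp.single_eq_of_ne
          intro he
          exact hne (hx _ _ _ _ he).2.symm
        · intro h; exact absurd hk h
      · intro i _ hne
        rw [ph_eq, Finset.mul_sum, MonoidAlgebra.coeff_sum, Finsupp.finsetSum_apply]
        apply Finset.sum_eq_zero
        intro h _
        rw [em_mul]
        simp only [em, MonoidAlgebra.of_apply, MonoidAlgebra.coeff_single]
        apply Finsupp.single_eq_of_ne
        intro he
        exact hne (hx _ _ _ _ he).1.symm
      · intro h
        exfalso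
        apply h
        rw [Finset.mem_filter]
        exact ⟨Finset.mem_univ _, hi0⟩
    rw [hz] at h1
    simp at h1
  refine ⟨em (x r0 * t ^ h0 * y j0)⁻¹ * rowSum t x P (univ.filter (fun r => col r = false)),
    colSum t y Q, ?_, ?_⟩
  · rw [mul_assoc, halp, em_mul, inv_mul_cancel, em_one]
  · exact not_df_of (c := rowSum t x P (univ.filter (fun r => col r = true))) hgam hgne

end

end Vale.Agent.P194.M
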