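import Vale.Agent.P194.M.Inst

/-!
P194: the end of the argument for the instance `PS.toSys` (helper22).
-/

namespace Vale.Agent.P194.M

open Vale.Agent.P201.S

section

variable {Ω : Sys} (σ : Equiv.Perm Ω.C)

/-- image of a letter in the group -/
noncomputable def glt (l : Let Ω) : Gp σ := PresentedGroup.of (rels := rels σ) l

/-- the element of a port -/
noncomputable def tep (q : Port Ω) : Gp σ :=
  glt σ (Let.x (Ω.rc q)) * glt σ Let.t ^ (Ω.ht q) * glt σ (Let.y (Ω.blk q))

theorem val_tw_eq (h : ℤ) : val (tw Ω h) = FreeGroup.of (Let.t : Let Ω) ^ h := by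
  unfold val tw
  have h2 : ∀ (m : ℕ) (b : Bool), (FreeGroup.mk (List.replicate m ((Let.t : Let Ω), b))) =
      (FreeGroup.mk [((Let.t : Let Ω), b)]) ^ m := by
    intro m b
    induction m with
    | zero => rfl
    | succ m ih => rw [List.replicate_succ, pow_succ', ← ih, FreeGroup.mul_mk]; rfl
  rw [h2]
  rcases le_or_gt 0 h with hh | hh
  · rw [decide_eq_true hh]
    obtain ⟨m, rfl⟩ := Int.eq_ofNat_of_zero_le hh
    simp [FreeGroup.of]
  · rw [decide_eq_false (not_le.2 hh)]
    obtain ⟨m, rfl⟩ := Int.exists_eq_neg_ofNat hh.le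
    have h3 : (FreeGroup.mk [((Let.t : Let Ω), false)]) = (FreeGroup.of Let.t)⁻¹ := by
      simp [FreeGroup.of, FreeGroup.invRev]
    rw [h3]
    simp

theorem mk_tw (h : ℤ) : PresentedGroup.mk (rels σ) (val (tw Ω h)) = glt σ Let.t ^ h := by
  rw [val_tw_eq, map_zpow]
  rfl

theorem val_append {A : Type} (l l' : List (A × Bool)) : val (l ++ l') = val l * val l' := by
  simp [val]

theorem val_winv {A : Type} (l : List (A × Bool)) : val (winv l) = (val l)⁻¹ := by
  simp [val, winv, FreeGroup.invRev]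

theorem mk_half (q : Port Ω) : PresentedGroup.mk (rels σ) (val (half q)) = tep σ q := by
  unfold half tep
  have h1 : val ((Let.x (Ω.rc q), true) :: (tw Ω (Ω.ht q) ++ [(Let.y (Ω.blk q), true)])) =
      FreeGroup.of (Let.x (Ω.rc q)) * val (tw Ω (Ω.ht q)) * FreeGroup.of (Let.y (Ω.blk q)) := by
    rw [← List.singleton_append, val_append, val_append, ← mul_assoc]
    rfl
  rw [h1, map_mul, map_mul, mk_tw]
  rfl

theorem tep_mt (q : Port Ω) : tep σ (mt σ q) = tep σ q := by
  have h1 : PresentedGroup.mk (rels σ) (val (relw σ q)) = 1 := by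
    apply (PresentedGroup.mk_eq_one_iff).2
    exact Subgroup.subset_normalClosure ⟨q, rfl⟩
  unfold relw at h1
  rw [val_append, val_winv, map_mul, map_inv, mk_half, mk_half, mul_inv_eq_one] at h1
  exact h1.symm

/-- `t` has infinite order as soon as the words of weight zero are injective -/
theorem t_inj (hs : ∀ m : ℤ, PresentedGroup.mk (rels σ) (val (tw Ω m)) = 1 → val (tw Ω m) = 1) :
    Function.Injective (fun n : ℤ => glt σ Let.t ^ n) := by
  intro a b h
  simp only at h
  have h1 : glt σ Let.t ^ (a - b) = 1 := by rw [zpow_sub, h, mul_inv_cancel]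
  rw [← mk_tw] at h1
  have h2 := hs _ h1
  rw [val_tw_eq] at h2
  have h3 := congrArg (FreeGroup.lift (fun _ : Let Ω => Multiplicative.ofAdd (1 : ℤ))) h2
  rw [map_zpow, FreeGroup.lift_apply_of, MonoidHom.map_one] at h3
  have h4 : a - b = 0 := by
    rw [← ofAdd_zsmul, ofAdd_eq_one, smul_eq_mul, mul_one] at h3
    exact h3
  omega

/-- the short words of the machine are enough -/
theorem t_inj_of_short (Y : ℕ)
    (hs : ∀ l : List (Let Ω × Bool), (∀ a ∈ l, ∀ j, a.1 ≠ Let.y j) → wtw Y l ≤ 2 →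
      PresentedGroup.mk (rels σ) (val l) = 1 → val l = 1) :
    Function.Injective (fun n : ℤ => glt σ Let.t ^ n) := by
  apply t_inj
  intro m hm
  have hmem : ∀ b ∈ tw Ω m, b.1 = Let.t := by
    intro b hb
    unfold tw at hb
    rw [List.mem_replicate] at hb
    rw [hb.2]
  apply hs
  · intro b hb j hj
    rw [hmem b hb] at hj
    cases hj
  · unfold wtw
    rw [List.sum_eq_zero]
    · omega
    · intro x hx
      obtain ⟨b, hb, rfl⟩ := List.mem_map.1 hx
      rw [hmem b hb]
      rfl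
  · exact hm

end

namespace PS

variable {p : PS} (q0 : p.Pt)

/-- The end: if all `P r` are divisible by a non-invertible `D` and `t` has infinite order, then the
group algebra over `F_2` is not directly finite. -/
theorem not_df (hb : Bal q0) (P' : p.R → AddMonoidAlgebra (ZMod 2) ℤ)
    (D : AddMonoidAlgebra (ZMod 2) ℤ) (hP : ∀ r, p.P r = P' r * D)
    (hD : ∀ c : AddMonoidAlgebra (ZMod 2) ℤ, c * D ≠ 1)
    (σ : Equiv.Perm (toSys q0 hb).C)
    (ht : Function.Injective (fun n : ℤ => glt σ Let.t ^ n)) :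
    ∃ a b : MonoidAlgebra (ZMod 2) (Gp σ), a * b = 1 ∧ b * a ≠ 1 := by
  refine fin_alg2 (glt σ Let.t) (fun r : p.R => glt σ (Let.x r)) (fun b : p.B => glt σ (Let.y b))
    p.P p.Q P' D hP hD ht (toSys q0 hb).rc (toSys q0 hb).blk (toSys q0 hb).ht σ
    (toSys q0 hb).inj q0.1.1 q0.1.2 q0.2.1 q0.2.2 ?_ ?_ ?_ ?_
  · intro q
    exact (pm q0 hb q).2.2
  · intro r j h hh
    by_cases h1 : (⟨(r, j), ⟨h, hh⟩⟩ : p.Pt) = q0
    · left
      rw [← h1]
      exact ⟨rfl, rfl, rfl⟩
    · right
      obtain ⟨x, hx⟩ := exists_pm q0 hb h1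
      exact ⟨x, congrArg (fun z : p.Pt => z.1.1) hx, congrArg (fun z : p.Pt => z.1.2) hx,
        congrArg (fun z : p.Pt => (z.2 : ℤ)) hx⟩
  · rintro q ⟨h1, h2, h3⟩
    exact pm_ne q0 hb q (pt_ext h1 h2 h3)
  · intro c
    have h1 := tep_mt σ (c, true)
    exact h1.symm

end PS

end Vale.Agent.P194.M
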