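import Vale.Agent.P201.S.Defs

/-! P194: bound of `nu2` for a system with a few extra rows and special blocks (helper477). -/

namespace Vale.Agent.P194.M

open Finset Vale.Agent.P201.S

section Abs

variable {U L : Type} [DecidableEq U] [DecidableEq L] (lab : U → L)

/-- pairs with the same label -/
def E2 (V : Finset U) : ℕ := ((V ×ˢ V).filter (fun x => lab x.1 = lab x.2)).card

theorem E2_eq (V : Finset U) (I : Finset L) (hI : ∀ u ∈ V, lab u ∈ I) :
    E2 lab V = ∑ l ∈ I, (V.filter (fun u => lab u = l)).card ^ 2 := by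
  unfold E2
  rw [Finset.card_eq_sum_card_fiberwise (f := fun x => lab x.1) (t := I)]
  · refine Finset.sum_congr rfl fun l _ => ?_
    rw [sq, ← Finset.card_product]
    congr 1
    ext ⟨a, b⟩
    simp only [mem_filter, mem_product]
    constructor
    · rintro ⟨⟨⟨h1, h2⟩, h3⟩, h4⟩
      exact ⟨⟨h1, h4⟩, h2, h3 ▸ h4⟩
    · rintro ⟨⟨h1, h2⟩, h3, h4⟩
      exact ⟨⟨⟨h1, h3⟩, h2.trans h4.symm⟩, h2⟩
  · intro x hx
    have hx' := mem_filter.1 (Finset.mem_coe.1 hx)
    exact hI _ (mem_product.1 hx'.1).1

theorem E2_split (V : Finset U) (P : U → Prop) [DecidablePred P] :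
    49 * E2 lab V ≤ 50 * E2 lab (V.filter P) + 2450 * E2 lab (V.filter (fun u => ¬ P u)) := by
  have hI : ∀ u ∈ V, lab u ∈ V.image lab := fun u hu => mem_image_of_mem _ hu
  rw [E2_eq lab V (V.image lab) hI,
    E2_eq lab (V.filter P) (V.image lab) (fun u hu => hI u (mem_filter.1 hu).1),
    E2_eq lab (V.filter (fun u => ¬ P u)) (V.image lab) (fun u hu => hI u (mem_filter.1 hu).1),
    mul_sum, mul_sum, mul_sum, ← sum_add_distrib]
  refine sum_le_sum fun l _ => ?_
  have h1 : (V.filter (fun u => lab u = l)).card =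
      ((V.filter P).filter (fun u => lab u = l)).card +
        ((V.filter (fun u => ¬ P u)).filter (fun u => lab u = l)).card := by
    rw [← Finset.card_filter_add_card_filter_not (s := V.filter (fun u => lab u = l)) P]
    congr 1 <;>
    · congr 1
      ext u
      simp only [mem_filter]
      tauto
  rw [h1]
  generalize ((V.filter P).filter (fun u => lab u = l)).card = a
  generalize ((V.filter (fun u => ¬ P u)).filter (fun u => lab u = l)).card = b
  zify
  nlinarith [sq_nonneg ((a : ℤ) - 49 * b)]

theorem E2_le (V : Finset U) (Q : U → Prop) [DecidablePred Q] (m1 m2 : ℕ)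
    (h1 : ∀ u ∈ V, Q u → (V.filter (fun u' => lab u' = lab u)).card ≤ m1)
    (h2 : ∀ u ∈ V, ¬ Q u → (V.filter (fun u' => lab u' = lab u)).card ≤ m2) :
    E2 lab V ≤ (V.filter Q).card * m1 + (V.filter (fun u => ¬ Q u)).card * m2 := by
  have h3 : E2 lab V = ∑ u ∈ V, (V.filter (fun u' => lab u' = lab u)).card := by
    unfold E2
    rw [Finset.card_eq_sum_card_fiberwise (f := fun x => x.1) (t := V)]
    · refine Finset.sum_congr rfl fun u hu => ?_
      refine Finset.card_bij (fun x _ => x.2) ?_ ?_ ?_
      · rintro ⟨a, b⟩ hx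
        simp only [mem_filter, mem_product] at hx ⊢
        obtain ⟨⟨⟨_, h5⟩, h6⟩, rfl⟩ := hx
        exact ⟨h5, h6.symm⟩
      · rintro ⟨a, b⟩ hx ⟨c, d⟩ hy h
        simp only [mem_filter, mem_product] at hx hy h
        rw [Prod.mk.injEq]
        exact ⟨hx.2.trans hy.2.symm, h⟩
      · intro b hb
        simp only [mem_filter] at hb
        refine ⟨(u, b), ?_, rfl⟩
        simp only [mem_filter, mem_product]
        exact ⟨⟨⟨hu, hb.1⟩, hb.2.symm⟩, trivial⟩
    · intro x hx
      have hx' := mem_filter.1 (Finset.mem_coe.1 hx)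
      exact (mem_product.1 hx'.1).1
  rw [h3, ← Finset.sum_filter_add_sum_filter_not V Q]
  refine Nat.add_le_add ?_ ?_
  · refine (Finset.sum_le_sum (g := fun _ => m1) fun u hu => ?_).trans ?_
    · exact h1 u (mem_filter.1 hu).1 (mem_filter.1 hu).2
    · rw [sum_const, smul_eq_mul]
  · refine (Finset.sum_le_sum (g := fun _ => m2) fun u hu => ?_).trans ?_
    · exact h2 u (mem_filter.1 hu).1 (mem_filter.1 hu).2
    · rw [sum_const, smul_eq_mul]

end Abs

variable (S : Sys)

/-- the units of a system -/
def Un : Finset (Port S × Port S) := univ.filter (fun x => S.blk x.1 = S.blk x.2 ∧ x.1 ≠ x.2)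

/-- the label of a unit -/
def lb (x : Port S × Port S) : S.R × S.R × ℤ := (S.rc x.1, S.rc x.2, S.ht x.2 - S.ht x.1)

theorem nu2_eq : nu2 S = E2 (lb S) (Un S) := by
  unfold nu2 E2 Un lb
  congr 1
  ext ⟨⟨a, b⟩, ⟨c, d⟩⟩
  simp only [mem_filter, mem_univ, true_and, mem_product, Prod.mk.injEq]
  tauto

theorem nu2_le (mr : S.R → Bool) (mb : S.B → Bool) (A e x s t m : ℕ)
    (hA : E2 (lb S) ((Un S).filter (fun u =>
      mr (S.rc u.1) = true ∧ mr (S.rc u.2) = true ∧ mb (S.blk u.1) = true)) ≤ A)
    (he : ∀ b, (univ.filter (fun q : Port S => S.blk q = b ∧ mr (S.rc q) = false)).card ≤ e)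
    (hx : ∀ r, mr r = false → (univ.filter (fun q : Port S => S.rc q = r)).card ≤ x)
    (hs : (univ.filter (fun b : S.B => mb b = false)).card ≤ s)
    (ht : ∀ r b, mr r = true → mb b = false →
      (univ.filter (fun q : Port S => S.rc q = r ∧ S.blk q = b)).card ≤ t)
    (hm : (univ.filter (fun r : S.R => mr r = true)).card ≤ m) :
    49 * nu2 S ≤ 50 * A + 2450 * (s * (m * t) ^ 2 * (s * t) + 4 * e * Fintype.card S.C * x) := by
  classical
  rw [nu2_eq]
  refine (E2_split (lb S) (Un S) (fun u =>
      mr (S.rc u.1) = true ∧ mr (S.rc u.2) = true ∧ mb (S.blk u.1) = true)).trans ?_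
  refine Nat.add_le_add (Nat.mul_le_mul_left _ hA) (Nat.mul_le_mul_left _ ?_)
  set V := (Un S).filter (fun u => ¬ (mr (S.rc u.1) = true ∧ mr (S.rc u.2) = true ∧
    mb (S.blk u.1) = true)) with hV
  have hVm : ∀ u : Port S × Port S, u ∈ V ↔ (S.blk u.1 = S.blk u.2 ∧ u.1 ≠ u.2) ∧
      ¬ (mr (S.rc u.1) = true ∧ mr (S.rc u.2) = true ∧ mb (S.blk u.1) = true) := by
    intro u
    simp [hV, Un]
  -- uniqueness of the second and the first port
  have hdet2 : ∀ u v : Port S × Port S, u ∈ V → v ∈ V → lb S u = lb S v → u.1 = v.1 → u = v := by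
    intro u v hu hv hl h1
    have h2 := ((hVm u).1 hu).1.1
    have h3 := ((hVm v).1 hv).1.1
    simp only [lb, Prod.mk.injEq] at hl
    refine Prod.ext h1 (S.inj _ _ hl.2.1 ?_ ?_)
    · rw [← h2, ← h3, h1]
    · have := hl.2.2
      rw [h1] at this
      linarith
  have hdet1 : ∀ u v : Port S × Port S, u ∈ V → v ∈ V → lb S u = lb S v → u.2 = v.2 → u = v := by
    intro u v hu hv hl h1
    have h2 := ((hVm u).1 hu).1.1
    have h3 := ((hVm v).1 hv).1.1
    simp only [lb, Prod.mk.injEq] at hl
    refine Prod.ext (S.inj _ _ hl.1 ?_ ?_) h1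
    · rw [h2, h3, h1]
    · have := hl.2.2
      rw [h1] at this
      linarith
  -- main ports of special blocks
  have hmt : ∀ b, mb b = false →
      (univ.filter (fun q : Port S => S.blk q = b ∧ mr (S.rc q) = true)).card ≤ m * t := by
    intro b hb
    rw [Finset.card_eq_sum_card_fiberwise (f := fun q => S.rc q)
      (t := univ.filter (fun r : S.R => mr r = true))]
    · refine (Finset.sum_le_sum (g := fun _ => t) fun r hr => ?_).trans ?_
      · refine le_trans (card_le_card ?_) (ht r b (mem_filter.1 hr).2 hb)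
        intro q hq
        simp only [mem_filter, mem_univ, true_and] at hq ⊢
        exact ⟨hq.2, hq.1.1⟩
      · rw [sum_const, smul_eq_mul]
        exact Nat.mul_le_mul_right _ hm
    · intro q hq
      have := mem_filter.1 (Finset.mem_coe.1 hq)
      exact Finset.mem_coe.2 (mem_filter.2 ⟨mem_univ _, this.2.2⟩)
  refine (E2_le (lb S) V (fun u => mr (S.rc u.1) = true ∧ mr (S.rc u.2) = true) (s * t) x
    ?_ ?_).trans (Nat.add_le_add (Nat.mul_le_mul_right _ ?_) (Nat.mul_le_mul_right _ ?_))
  · -- both rows main
    intro u hu hq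
    have h1 : (V.filter (fun u' => lb S u' = lb S u)).card ≤
        (univ.filter (fun q : Port S => S.rc q = S.rc u.1 ∧ mb (S.blk q) = false)).card := by
      refine card_le_card_of_injOn (fun v => v.1) ?_ ?_
      · intro v hv
        have hv' := mem_filter.1 (Finset.mem_coe.1 hv)
        have h2 := hv'.2
        simp only [lb, Prod.mk.injEq] at h2
        refine Finset.mem_coe.2 (mem_filter.2 ⟨mem_univ _, h2.1, ?_⟩)
        have h3 := ((hVm v).1 hv'.1).2
        by_contra h4
        apply h3
        refine ⟨?_, ?_, ?_⟩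
        · rw [h2.1]; exact hq.1
        · rw [h2.2.1]; exact hq.2
        · simpa using h4
      · intro v hv w hw hvw
        have hv' := mem_filter.1 (Finset.mem_coe.1 hv)
        have hw' := mem_filter.1 (Finset.mem_coe.1 hw)
        exact hdet2 v w hv'.1 hw'.1 (hv'.2.trans hw'.2.symm) hvw
    refine h1.trans ?_
    rw [Finset.card_eq_sum_card_fiberwise (f := fun q => S.blk q)
      (t := univ.filter (fun b : S.B => mb b = false))]
    · refine (Finset.sum_le_sum (g := fun _ => t) fun b hb => ?_).trans ?_
      · refine le_trans (card_le_card ?_) (ht (S.rc u.1) b hq.1 (mem_filter.1 hb).2)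
        intro q hq
        simp only [mem_filter, mem_univ, true_and] at hq ⊢
        exact ⟨hq.1.1, hq.2⟩
      · rw [sum_const, smul_eq_mul]
        exact Nat.mul_le_mul_right _ hs
    · intro q hq
      have := mem_filter.1 (Finset.mem_coe.1 hq)
      exact Finset.mem_coe.2 (mem_filter.2 ⟨mem_univ _, this.2.2⟩)
  · -- some row is extra
    intro u hu hq
    have hq' : mr (S.rc u.1) = false ∨ mr (S.rc u.2) = false := by
      by_contra h
      push Not at h
      apply hq
      simpa using h
    rcases hq' with h1 | h1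
    · refine le_trans ?_ (hx (S.rc u.1) h1)
      refine card_le_card_of_injOn (fun v => v.1) ?_ ?_
      · intro v hv
        have hv' := mem_filter.1 (Finset.mem_coe.1 hv)
        have h2 := hv'.2
        simp only [lb, Prod.mk.injEq] at h2
        exact Finset.mem_coe.2 (mem_filter.2 ⟨mem_univ _, h2.1⟩)
      · intro v hv w hw hvw
        have hv' := mem_filter.1 (Finset.mem_coe.1 hv)
        have hw' := mem_filter.1 (Finset.mem_coe.1 hw)
        exact hdet2 v w hv'.1 hw'.1 (hv'.2.trans hw'.2.symm) hvw
    · refine le_trans ?_ (hx (S.rc u.2) h1)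
      refine card_le_card_of_injOn (fun v => v.2) ?_ ?_
      · intro v hv
        have hv' := mem_filter.1 (Finset.mem_coe.1 hv)
        have h2 := hv'.2
        simp only [lb, Prod.mk.injEq] at h2
        exact Finset.mem_coe.2 (mem_filter.2 ⟨mem_univ _, h2.2.1⟩)
      · intro v hv w hw hvw
        have hv' := mem_filter.1 (Finset.mem_coe.1 hv)
        have hw' := mem_filter.1 (Finset.mem_coe.1 hw)
        exact hdet1 v w hv'.1 hw'.1 (hv'.2.trans hw'.2.symm) hvw
  · -- number of units with main rows in special blocks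
    have h1 : (V.filter (fun u => mr (S.rc u.1) = true ∧ mr (S.rc u.2) = true)).card ≤
        ∑ b ∈ univ.filter (fun b : S.B => mb b = false),
          ((univ.filter (fun q : Port S => S.blk q = b ∧ mr (S.rc q) = true)) ×ˢ
            (univ.filter (fun q : Port S => S.blk q = b ∧ mr (S.rc q) = true))).card := by
      rw [Finset.card_eq_sum_card_fiberwise (f := fun u => S.blk u.1)
        (t := univ.filter (fun b : S.B => mb b = false))]
      · refine Finset.sum_le_sum fun b hb => card_le_card ?_
        intro u hu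
        simp only [mem_filter, mem_univ, true_and, mem_product] at hu ⊢
        have h2 := ((hVm u).1 hu.1.1).1.1
        exact ⟨⟨hu.2, hu.1.2.1⟩, h2 ▸ hu.2, hu.1.2.2⟩
      · intro u hu
        have h2 := mem_filter.1 (Finset.mem_coe.1 hu)
        have h3 := ((hVm u).1 h2.1).2
        refine Finset.mem_coe.2 (mem_filter.2 ⟨mem_univ _, ?_⟩)
        by_contra h4
        exact h3 ⟨h2.2.1, h2.2.2, by simpa using h4⟩
    refine h1.trans ?_
    refine (Finset.sum_le_sum (g := fun _ => (m * t) ^ 2) fun b hb => ?_).trans ?_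
    · rw [card_product, sq]
      have := hmt b (mem_filter.1 hb).2
      exact Nat.mul_le_mul this this
    · rw [sum_const, smul_eq_mul]
      exact Nat.mul_le_mul_right _ hs
  · -- number of units with an extra row
    have h1 : V.filter (fun u => ¬ (mr (S.rc u.1) = true ∧ mr (S.rc u.2) = true)) ⊆
        (univ.filter (fun u : Port S × Port S => S.blk u.2 = S.blk u.1 ∧ mr (S.rc u.2) = false)) ∪
        (univ.filter (fun u : Port S × Port S => S.blk u.1 = S.blk u.2 ∧
          mr (S.rc u.1) = false)) := by
      intro u hu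
      have h2 := mem_filter.1 hu
      have h3 := ((hVm u).1 h2.1).1.1
      have hq' : mr (S.rc u.1) = false ∨ mr (S.rc u.2) = false := by
        by_contra h
        push Not at h
        apply h2.2
        simpa using h
      rw [mem_union]
      rcases hq' with h4 | h4
      · exact Or.inr (mem_filter.2 ⟨mem_univ _, h3, h4⟩)
      · exact Or.inl (mem_filter.2 ⟨mem_univ _, h3.symm, h4⟩)
    have hcard : Fintype.card (Port S) = 2 * Fintype.card S.C := by
      rw [Fintype.card_prod, Fintype.card_bool, mul_comm]
    have h2 : (univ.filter (fun u : Port S × Port S => S.blk u.2 = S.blk u.1 ∧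
        mr (S.rc u.2) = false)).card ≤ 2 * e * Fintype.card S.C := by
      rw [Finset.card_eq_sum_card_fiberwise (f := fun u => u.1) (t := univ) (fun _ _ => by simp)]
      refine (Finset.sum_le_sum (g := fun _ => e) fun q _ => ?_).trans ?_
      · refine le_trans ?_ (he (S.blk q))
        refine card_le_card_of_injOn (fun u => u.2) ?_ ?_
        · intro u hu
          have := mem_filter.1 (Finset.mem_coe.1 hu)
          have h5 := (mem_filter.1 this.1).2
          have h6 := this.2
          refine Finset.mem_coe.2 (mem_filter.2 ⟨mem_univ _, ?_, h5.2⟩)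
          rw [h5.1, h6]
        · intro u hu v hv huv
          have h3 := (mem_filter.1 (Finset.mem_coe.1 hu)).2
          have h4 := (mem_filter.1 (Finset.mem_coe.1 hv)).2
          exact Prod.ext (h3.trans h4.symm) huv
      · rw [sum_const, smul_eq_mul, card_univ, hcard]
        apply le_of_eq
        ring
    have h3 : (univ.filter (fun u : Port S × Port S => S.blk u.1 = S.blk u.2 ∧
        mr (S.rc u.1) = false)).card ≤ 2 * e * Fintype.card S.C := by
      rw [Finset.card_eq_sum_card_fiberwise (f := fun u => u.2) (t := univ) (fun _ _ => by simp)]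
      refine (Finset.sum_le_sum (g := fun _ => e) fun q _ => ?_).trans ?_
      · refine le_trans ?_ (he (S.blk q))
        refine card_le_card_of_injOn (fun u => u.1) ?_ ?_
        · intro u hu
          have := mem_filter.1 (Finset.mem_coe.1 hu)
          have h5 := (mem_filter.1 this.1).2
          have h6 := this.2
          refine Finset.mem_coe.2 (mem_filter.2 ⟨mem_univ _, ?_, h5.2⟩)
          rw [h5.1, h6]
        · intro u hu v hv huv
          have h3 := (mem_filter.1 (Finset.mem_coe.1 hu)).2
          have h4 := (mem_filter.1 (Finset.mem_coe.1 hv)).2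
          exact Prod.ext huv (h3.trans h4.symm)
      · rw [sum_const, smul_eq_mul, card_univ, hcard]
        apply le_of_eq
        ring
    refine (card_le_card h1).trans ((card_union_le _ _).trans ?_)
    calc _ ≤ 2 * e * Fintype.card S.C + 2 * e * Fintype.card S.C := Nat.add_le_add h2 h3
      _ = 4 * e * Fintype.card S.C := by ring

end Vale.Agent.P194.M
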